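import Vale.Agent.P082.Defs
import Mathlib.Analysis.CStarAlgebra.Classes
import Mathlib.Algebra.Star.Unitary

namespace Vale.Agent.P082

/-- `‖S(a) - T(a)‖ ≤ c ‖a‖` for all `a`. -/
def Near {A B : Type*} [NormedRing A] [NormedRing B] (S T : A → B) (c : ℝ) : Prop :=
  ∀ a, ‖S a - T a‖ ≤ c * ‖a‖

/-- `‖T(ab) - T(a)T(b)‖ ≤ δ ‖a‖ ‖b‖` for all `a`, `b`. -/
def MultiplicativeUpTo {A B : Type*} [NormedRing A] [NormedRing B] (δ : ℝ) (T : A → B) : Prop :=
  ∀ a b, ‖T (a * b) - T a * T b‖ ≤ δ * ‖a‖ * ‖b‖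

/-- Stability of automorphisms near the identity, with constants `ε` and `C`: if `T : A → A` is
linear with `‖T(a) - a‖ ≤ η ‖a‖`, `η ≤ ε`, and multiplicative up to `δ`, then there is an invertible
`s` in `A` with `‖s - 1‖ ≤ C η` and `‖T(a) - s a s⁻¹‖ ≤ C δ ‖a‖` for all `a`; if moreover
`T(a*) = T(a)*` for all `a`, there is such an `s` which is unitary. -/
def StableAutomorphisms (A : Type*) [NormedRing A] [StarRing A] [NormedAlgebra ℂ A] (ε C : ℝ) :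
    Prop :=
  ∀ (T : A → A) (η δ : ℝ), IsLinearMap ℂ T → 0 ≤ η → η ≤ ε → 0 ≤ δ → Near T id η →
    MultiplicativeUpTo δ T →
      (∃ s : Aˣ, ‖(s : A) - 1‖ ≤ C * η ∧
        Near T (fun a => (s : A) * a * ((s⁻¹ : Aˣ) : A)) (C * δ)) ∧
      ((∀ a, T (star a) = star (T a)) →
        ∃ u ∈ unitary A, ‖u - 1‖ ≤ C * η ∧ Near T (fun a => u * a * star u) (C * δ))

/-- Stability of the product, with constants `ε` and `C`: if `m` is a bilinear product on `A` with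
`‖m(a,b) - ab‖ ≤ η ‖a‖ ‖b‖`, `η ≤ ε`, which is associative up to `δ`,
`‖m(m(a,b),c) - m(a,m(b,c))‖ ≤ δ ‖a‖ ‖b‖ ‖c‖`, then there is a linear bijection `T` of `A` with
`‖T(a) - a‖ ≤ C η ‖a‖` and `‖T(m(a,b)) - T(a)T(b)‖ ≤ C δ ‖a‖ ‖b‖`. -/
def StableProducts (A : Type*) [NormedRing A] [NormedAlgebra ℂ A] (ε C : ℝ) : Prop :=
  ∀ (m : A → A → A) (η δ : ℝ), (∀ a, IsLinearMap ℂ (m a)) → (∀ b, IsLinearMap ℂ fun a => m a b) →
    0 ≤ η → η ≤ ε → 0 ≤ δ → (∀ a b, ‖m a b - a * b‖ ≤ η * ‖a‖ * ‖b‖) →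
    (∀ a b c, ‖m (m a b) c - m a (m b c)‖ ≤ δ * ‖a‖ * ‖b‖ * ‖c‖) →
      ∃ T : A → A, IsLinearMap ℂ T ∧ Function.Bijective T ∧ Near T id (C * η) ∧
        ∀ a b, ‖T (m a b) - T a * T b‖ ≤ C * δ * ‖a‖ * ‖b‖

universe u v

/-- `T : A → B` is a linear bijection with `‖T‖, ‖T⁻¹‖ ≤ L`, multiplicative up to `δ`. -/
def AlmostIsomorphism {A B : Type*} [NormedRing A] [NormedAlgebra ℂ A] [NormedRing B]
    [NormedAlgebra ℂ B] (L δ : ℝ) (T : A → B) : Prop :=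
  IsLinearMap ℂ T ∧ Function.Surjective T ∧ (∀ a, ‖T a‖ ≤ L * ‖a‖ ∧ ‖a‖ ≤ L * ‖T a‖) ∧
    MultiplicativeUpTo δ T

/-- Stability of isomorphisms onto normed algebras, with constants `ε` and `C`: let `B` be a normed
algebra and `T : A → B` a linear bijection with `‖T‖, ‖T⁻¹‖ ≤ L`, `L ≥ 1`, multiplicative up to
`δ`, where `L δ ≤ ε`; then there is an isomorphism of algebras `S : A → B` with
`‖S(a) - T(a)‖ ≤ C L² δ ‖a‖`, and `H_b^n(B,B) = 0` for all `n ≥ 1`. -/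
def StableIsomorphisms (A : Type*) [NormedRing A] [NormedAlgebra ℂ A] (ε C : ℝ) : Prop :=
  ∀ (B : Type v) [NormedRing B] [NormedAlgebra ℂ B] (T : A → B) (L δ : ℝ), 1 ≤ L → 0 ≤ δ →
    L * δ ≤ ε → AlmostIsomorphism L δ T →
      (∃ S : A ≃ₐ[ℂ] B, Near S T (C * L ^ 2 * δ)) ∧ ∀ k, BoundedCohomologyVanishes B k

/-- Stability of *-isomorphisms onto unital C*-algebras, with constants `ε` and `C`: if `B` is a
unital C*-algebra and `T : A → B` a linear bijection with `‖T‖, ‖T⁻¹‖ ≤ L`, `L ≥ 1`, and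
`T(a*) = T(a)*`, multiplicative up to `δ`, where `L³ δ ≤ ε`, then there is a *-isomorphism
`S : A → B` with `‖S(a) - T(a)‖ ≤ C L⁴ δ ‖a‖`. -/
def StableStarIsomorphisms (A : Type*) [NormedRing A] [StarRing A] [NormedAlgebra ℂ A]
    (ε C : ℝ) : Prop :=
  ∀ (B : Type v) [CStarAlgebra B] (T : A → B) (L δ : ℝ), 1 ≤ L → 0 ≤ δ → L ^ 3 * δ ≤ ε →
    AlmostIsomorphism L δ T → (∀ a, T (star a) = star (T a)) →
      ∃ S : A ≃⋆ₐ[ℂ] B, Near S T (C * L ^ 4 * δ)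

section
variable {H : Type u} [NormedAddCommGroup H] [InnerProductSpace ℂ H] [CompleteSpace H]

/-- `H_b^n(M,M) = 0` for all `n ≥ 1`, for a von Neumann algebra `M` on `H`. -/
def KadisonRingroseFor (M : VonNeumannAlgebra H) : Prop :=
  ∀ k, BoundedCohomologyVanishes M.toStarSubalgebra k

/-- `StableAutomorphisms` for a von Neumann algebra `M`. -/
def VNStableAutomorphisms (M : VonNeumannAlgebra H) (ε C : ℝ) : Prop :=
  StableAutomorphisms M.toStarSubalgebra ε C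

/-- `StableProducts` for a von Neumann algebra `M`. -/
def VNStableProducts (M : VonNeumannAlgebra H) (ε C : ℝ) : Prop :=
  StableProducts M.toStarSubalgebra ε C

/-- `StableIsomorphisms` for a von Neumann algebra `M`. -/
def VNStableIsomorphisms (M : VonNeumannAlgebra H) (ε C : ℝ) : Prop :=
  StableIsomorphisms.{v} M.toStarSubalgebra ε C

/-- `StableStarIsomorphisms` for a von Neumann algebra `M`. -/
def VNStableStarIsomorphisms (M : VonNeumannAlgebra H) (ε C : ℝ) : Prop :=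
  StableStarIsomorphisms.{v} M.toStarSubalgebra ε C

end

end Vale.Agent.P082
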