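import Vale.Agent.P082.H304.Stab

/-!
# Approximately multiplicative maps near the identity of a Banach algebra
-/

namespace Vale.Agent.P082.H770

open Vale.Agent.P082.H304

section

variable {A : Type*} [NormedRing A] [NormedAlgebra ℂ A]

/-- approximate derivations are near inner derivations -/
def Stab1 (A : Type*) [NormedRing A] [NormedAlgebra ℂ A] (K : ℝ) : Prop :=
  ∀ (f : A →L[ℂ] A) (c : ℝ), 0 ≤ c →
    (∀ x y, ‖x * f y - f (x * y) + f x * y‖ ≤ c * (‖x‖ * ‖y‖)) →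
    ∃ g : A, ‖g‖ ≤ K * ‖f‖ ∧ ∀ x, ‖f x - (x * g - g * x)‖ ≤ K * c * ‖x‖

/-- an operator as a 1-cochain -/
noncomputable def ofOp (f : A →L[ℂ] A) : ContinuousMultilinearMap ℂ (fun _ : Fin 1 => A) A :=
  MultilinearMap.mkContinuous
    { toFun := fun x => f (x 0)
      map_update_add' := fun {inst} x i a b => by
        obtain rfl := Subsingleton.elim i 0
        simp
      map_update_smul' := fun {inst} x i c a => by
        obtain rfl := Subsingleton.elim i 0
        simp } ‖f‖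
    (fun x => by
      rw [Fin.prod_univ_one]
      exact f.le_opNorm _)

lemma ofOp_apply (f : A →L[ℂ] A) (x : Fin 1 → A) : ofOp f x = f (x 0) := rfl

lemma norm_ofOp_le (f : A →L[ℂ] A) : ‖ofOp f‖ ≤ ‖f‖ :=
  ContinuousMultilinearMap.opNorm_le_bound (norm_nonneg f) fun x => by
    rw [Fin.prod_univ_one]
    exact f.le_opNorm _

lemma hochschild_ofOp (f : A →L[ℂ] A) (a : Fin 2 → A) :
    hochschild (fun x => ofOp f x) a
      = a 0 * f (a 1) - f (a 0 * a 1) + f (a 0) * a 1 := by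
  unfold hochschild
  rw [Fin.sum_univ_one]
  simp only [ofOp_apply]
  have h3 : contract (0 : Fin 1) a 0 = a 0 * a 1 := by
    simp [contract]
  have h4 : a (Fin.last 1) = a 1 := rfl
  have h5 : a (Fin.succ 0) = a 1 := rfl
  have h6 : a (Fin.castSucc 0) = a 0 := rfl
  rw [h3, h4, h5, h6]
  simp
  abel

lemma hochschild_zeroCochain (g : ContinuousMultilinearMap ℂ (fun _ : Fin 0 => A) A)
    (a : Fin 1 → A) :
    hochschild (fun x => g x) a = a 0 * g 0 - g 0 * a 0 := by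
  unfold hochschild
  have h1 : ∀ z : Fin 0 → A, z = 0 := fun z => Subsingleton.elim _ _
  have h2 : a (Fin.last 0) = a 0 := rfl
  rw [Fin.sum_univ_zero, h1 (fun i => a i.succ), h1 (fun i => a i.castSucc), h2]
  simp
  abel

theorem stab1_of_vanishing {K : ℝ} (hK : 0 ≤ K)
    (h1 : ∀ f : ContinuousMultilinearMap ℂ (fun _ : Fin 1 => A) A,
      (∀ a, hochschild (fun x => f x) a = 0) →
      ∃ g : ContinuousMultilinearMap ℂ (fun _ : Fin 0 => A) A,
        (∀ a, hochschild (fun x => g x) a = f a) ∧ ‖g‖ ≤ K * ‖f‖)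
    (h2 : ∀ f : ContinuousMultilinearMap ℂ (fun _ : Fin 2 => A) A,
      (∀ a, hochschild (fun x => f x) a = 0) →
      ∃ g : ContinuousMultilinearMap ℂ (fun _ : Fin 1 => A) A,
        (∀ a, hochschild (fun x => g x) a = f a) ∧ ‖g‖ ≤ K * ‖f‖) :
    Stab1 A (K * (1 + K * 3)) := by
  intro f c hc0 hf
  obtain ⟨g, hg, hgf⟩ := approx_of_vanishing hK h1 h2 (ofOp f) c (fun a => by
    rw [hochschild_ofOp]
    refine (hf _ _).trans (le_of_eq ?_)
    rw [Fin.prod_univ_two]) hc0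
  refine ⟨g 0, ?_, fun x => ?_⟩
  · have h4 : ‖g 0‖ ≤ ‖g‖ := by
      have := g.le_opNorm 0
      simpa using this
    refine h4.trans (hg.trans ?_)
    have h3 : (((0 : ℕ) : ℝ) + 3) = 3 := by norm_num
    rw [h3]
    exact mul_le_mul_of_nonneg_left (norm_ofOp_le f) (by positivity)
  · have h4 := hgf (fun _ => x)
    rw [hochschild_zeroCochain, ofOp_apply, Fin.prod_univ_one] at h4
    have h5 : K * c * ‖x‖ ≤ K * (1 + K * 3) * c * ‖x‖ := by
      have h6 : K ≤ K * (1 + K * 3) := by nlinarith [mul_nonneg hK hK]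
      have h7 : 0 ≤ c * ‖x‖ := by positivity
      nlinarith
    exact h4.trans h5

/-- an element at distance at most `1/2` from `1` is invertible -/
lemma exists_unit [CompleteSpace A] [NormOneClass A] (s : A) (hs : ‖s - 1‖ ≤ 1 / 2) :
    ‖s‖ ≤ 3 / 2 ∧ ∃ u : Aˣ, (u : A) = s ∧ ‖((u⁻¹ : Aˣ) : A)‖ ≤ 2 := by
  have hs1 : ‖s‖ ≤ 3 / 2 := by
    have h1 : s = (s - 1) + 1 := by abel
    rw [h1]
    refine (norm_add_le _ _).trans ?_
    rw [norm_one]
    linarith
  have h1 : ‖(1 : A) - s‖ < 1 := by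
    rw [norm_sub_rev]
    exact lt_of_le_of_lt hs (by norm_num)
  refine ⟨hs1, Units.oneSub (1 - s) h1, by simp, ?_⟩
  set u := Units.oneSub (1 - s) h1 with hu
  have hus : (u : A) = s := by simp [hu]
  have h2 : ((u⁻¹ : Aˣ) : A) = 1 - (s - 1) * ((u⁻¹ : Aˣ) : A) := by
    rw [sub_mul, one_mul, ← hus, Units.mul_inv]
    abel
  have h3 : ‖((u⁻¹ : Aˣ) : A)‖ ≤ 1 + 1 / 2 * ‖((u⁻¹ : Aˣ) : A)‖ := by
    conv_lhs => rw [h2]
    refine (norm_sub_le _ _).trans ?_
    rw [norm_one]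
    have h4 : ‖(s - 1) * ((u⁻¹ : Aˣ) : A)‖ ≤ 1 / 2 * ‖((u⁻¹ : Aˣ) : A)‖ :=
      (norm_mul_le _ _).trans (mul_le_mul_of_nonneg_right hs (norm_nonneg _))
    linarith
  linarith

/-- one step: `s` intertwines `T` and the identity up to `d`, the next one up to
`12 K d² + (9/2) K δ` -/
theorem inner_step [CompleteSpace A] [NormOneClass A] {K : ℝ} (hK : 1 ≤ K) (hst : Stab1 A K)
    (T : A →L[ℂ] A) (δ : ℝ) (hδ : 0 ≤ δ)
    (hT : ∀ a b, ‖T (a * b) - T a * T b‖ ≤ δ * (‖a‖ * ‖b‖)) (s : A) (hs : ‖s - 1‖ ≤ 1 / 2)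
    (d : ℝ) (hd : 0 ≤ d) (hsd : ∀ a, ‖T a * s - s * a‖ ≤ d * ‖a‖) :
    ∃ s' : A, ‖s' - s‖ ≤ 3 * K * d ∧
      ∀ a, ‖T a * s' - s' * a‖ ≤ (12 * K * d ^ 2 + 9 / 2 * K * δ) * ‖a‖ := by
  have hK0 : 0 ≤ K := by linarith
  obtain ⟨hs1, u, hu, hu2⟩ := exists_unit s hs
  set r : A := ((u⁻¹ : Aˣ) : A) with hr
  have hrs : r * s = 1 := by rw [hr, ← hu, Units.inv_mul]
  have hsr : s * r = 1 := by rw [hr, ← hu, Units.mul_inv]
  -- `f a = r T(a) s - a`
  obtain ⟨f, hf⟩ : ∃ f : A →L[ℂ] A, ∀ x, f x = r * T x * s - x :=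
    ⟨(ContinuousLinearMap.mul ℂ A r).comp (((ContinuousLinearMap.mul ℂ A).flip s).comp T)
      - ContinuousLinearMap.id ℂ A, fun x => by
        change r * (T x * s) - x = _
        rw [mul_assoc]⟩
  have hfs : ∀ x, s * f x = T x * s - s * x := fun x => by
    rw [hf, mul_sub, ← mul_assoc, ← mul_assoc, hsr, one_mul]
  have hfr : ∀ x, f x = r * (T x * s - s * x) := fun x => by
    rw [← hfs, ← mul_assoc, hrs, one_mul]
  have hfb : ∀ x, ‖f x‖ ≤ 2 * d * ‖x‖ := fun x => by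
    rw [hfr]
    calc ‖r * (T x * s - s * x)‖ ≤ ‖r‖ * ‖T x * s - s * x‖ := norm_mul_le _ _
      _ ≤ 2 * (d * ‖x‖) := by gcongr; exact hsd x
      _ = 2 * d * ‖x‖ := by ring
  have hfn : ‖f‖ ≤ 2 * d := f.opNorm_le_bound (by positivity) hfb
  have hdf : ∀ x y, x * f y - f (x * y) + f x * y
      = -(r * (T (x * y) - T x * T y) * s) - f x * f y := by
    intro x y
    have h1 : (x + f x) * (y + f y) = r * (T x * T y) * s := by
      have h2 : ∀ z, z + f z = r * T z * s := fun z => by rw [hf]; abel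
      rw [h2, h2]
      calc r * T x * s * (r * T y * s) = r * T x * (s * r) * T y * s := by noncomm_ring
        _ = r * (T x * T y) * s := by rw [hsr]; noncomm_ring
    have h3 : f (x * y) = r * T (x * y) * s - x * y := hf _
    rw [h3, mul_sub, sub_mul, ← h1]
    noncomm_ring
  obtain ⟨g, hg, hgf⟩ := hst f (3 * δ + 4 * d ^ 2) (by positivity) (fun x y => by
    rw [hdf]
    have h1 : ‖r * (T (x * y) - T x * T y) * s‖ ≤ 2 * (δ * (‖x‖ * ‖y‖)) * (3 / 2) := by
      refine (norm_mul_le _ _).trans ?_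
      gcongr
      refine (norm_mul_le _ _).trans ?_
      gcongr
      exact hT x y
    have h2 : ‖f x * f y‖ ≤ (2 * d * ‖x‖) * (2 * d * ‖y‖) := by
      refine (norm_mul_le _ _).trans ?_
      gcongr
      · exact hfb x
      · exact hfb y
    refine (norm_sub_le _ _).trans ?_
    rw [norm_neg]
    refine (add_le_add h1 h2).trans (le_of_eq ?_)
    ring)
  have hgn : ‖g‖ ≤ 2 * K * d := hg.trans (by nlinarith)
  refine ⟨s * (1 - g), ?_, fun a => ?_⟩
  · have h1 : s * (1 - g) - s = -(s * g) := by noncomm_ring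
    rw [h1, norm_neg]
    refine (norm_mul_le _ _).trans ?_
    calc ‖s‖ * ‖g‖ ≤ 3 / 2 * (2 * K * d) := by gcongr
      _ = 3 * K * d := by ring
  · have h1 : T a * (s * (1 - g)) - s * (1 - g) * a
        = s * ((f a - (a * g - g * a)) - f a * g) := by
      have h2 : T a * s = s * (a + f a) := by
        rw [mul_add, hfs]
        abel
      rw [← mul_assoc, h2]
      noncomm_ring
    rw [h1]
    refine (norm_mul_le _ _).trans ?_
    have h3 : ‖(f a - (a * g - g * a)) - f a * g‖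
        ≤ K * (3 * δ + 4 * d ^ 2) * ‖a‖ + (2 * d * ‖a‖) * (2 * K * d) := by
      refine (norm_sub_le _ _).trans (add_le_add (hgf a) ?_)
      refine (norm_mul_le _ _).trans ?_
      gcongr
      exact hfb a
    calc ‖s‖ * ‖(f a - (a * g - g * a)) - f a * g‖
        ≤ 3 / 2 * (K * (3 * δ + 4 * d ^ 2) * ‖a‖ + (2 * d * ‖a‖) * (2 * K * d)) := by gcongr
      _ = (12 * K * d ^ 2 + 9 / 2 * K * δ) * ‖a‖ := by ring

/-- **Approximately multiplicative maps near the identity** are near inner automorphisms. -/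
theorem near_inner [CompleteSpace A] [NormOneClass A] {K : ℝ} (hK : 1 ≤ K) (hst : Stab1 A K)
    (T : A →L[ℂ] A) (η δ : ℝ) (hη0 : 0 ≤ η) (hδ0 : 0 ≤ δ) (hη : 48 * K * η ≤ 1)
    (hdef : ∀ a, ‖T a - a‖ ≤ η * ‖a‖)
    (hT : ∀ a b, ‖T (a * b) - T a * T b‖ ≤ δ * (‖a‖ * ‖b‖)) :
    ∃ s : Aˣ, ‖(s : A) - 1‖ ≤ 6 * K * η ∧
      ∀ a, ‖T a - s * a * ((s⁻¹ : Aˣ) : A)‖ ≤ 36 * K * δ * ‖a‖ := by
  have hK0 : 0 ≤ K := by linarith
  have hKη : 6 * K * η ≤ 1 / 2 := by nlinarith
  let P : ℕ → A → Prop := fun n s =>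
    ‖s - 1‖ ≤ 6 * K * η * (1 - 1 / 2 ^ n) ∧ ∀ a, ‖T a * s - s * a‖ ≤ η / 2 ^ n * ‖a‖
  have hP0 : P 0 1 := by
    refine ⟨by simp, fun a => ?_⟩
    rw [pow_zero, div_one, mul_one, one_mul]
    exact hdef a
  have hhalf : ∀ n s, P n s → ‖s - 1‖ ≤ 1 / 2 := by
    intro n s hs
    refine hs.1.trans (le_trans ?_ hKη)
    refine mul_le_of_le_one_right (by positivity) ?_
    have : 0 ≤ 1 / (2 : ℝ) ^ n := by positivity
    linarith
  have hstep : ∀ n s, P n s → 18 * K * δ ≤ η / 2 ^ n →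
      ∃ s', P (n + 1) s' ∧ ‖s' - s‖ ≤ 3 * K * (η / 2 ^ n) := by
    intro n s hs hbig
    have hp : (0 : ℝ) < 2 ^ n := by positivity
    have hp1 : (1 : ℝ) ≤ 2 ^ n := one_le_pow₀ (by norm_num)
    obtain ⟨s', h2, h3⟩ := inner_step hK hst T δ hδ0 hT s (hhalf n s hs) (η / 2 ^ n)
      (by positivity) hs.2
    refine ⟨s', ⟨?_, fun a => (h3 a).trans ?_⟩, h2⟩
    · have h4 : s' - 1 = (s' - s) + (s - 1) := by abel
      rw [h4]
      refine (norm_add_le _ _).trans ((add_le_add h2 hs.1).trans (le_of_eq ?_))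
      rw [pow_succ]
      field_simp
      ring
    · refine mul_le_mul_of_nonneg_right ?_ (norm_nonneg _)
      set e := η / 2 ^ n with he
      have he0 : 0 ≤ e := by positivity
      have he1 : e ≤ η := div_le_self hη0 hp1
      have h5 : η / 2 ^ (n + 1) = e / 2 := by
        rw [he, pow_succ]
        field_simp
      rw [h5]
      have h6 : 12 * K * e ^ 2 ≤ e / 4 := by
        have h7 : 12 * K * e ≤ 1 / 4 := by nlinarith [mul_le_mul_of_nonneg_left he1 hK0]
        nlinarith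
      linarith
  -- from an approximate intertwiner to the conclusion
  have hfin : ∀ s : A, ‖s - 1‖ ≤ 6 * K * η → ∀ d, 0 ≤ d → (∀ a, ‖T a * s - s * a‖ ≤ d * ‖a‖) →
      ∃ u : Aˣ, ‖(u : A) - 1‖ ≤ 6 * K * η ∧
        ∀ a, ‖T a - u * a * ((u⁻¹ : Aˣ) : A)‖ ≤ 2 * d * ‖a‖ := by
    intro s hs d hd hsd
    obtain ⟨-, u, hu, hu2⟩ := exists_unit s (hs.trans hKη)
    refine ⟨u, by rw [hu]; exact hs, fun a => ?_⟩
    have h1 : T a - u * a * ((u⁻¹ : Aˣ) : A) = (T a * s - s * a) * ((u⁻¹ : Aˣ) : A) := by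
      rw [← hu, sub_mul, Units.mul_inv_cancel_right]
    rw [h1]
    refine (norm_mul_le _ _).trans ?_
    calc ‖T a * s - s * a‖ * ‖((u⁻¹ : Aˣ) : A)‖ ≤ (d * ‖a‖) * 2 := by
          gcongr
          exact hsd a
      _ = 2 * d * ‖a‖ := by ring
  rcases hδ0.eq_or_lt with hδ | hδ
  · -- exact homomorphisms: the limit
    subst hδ
    have hstep' : ∀ n s, P n s → ∃ s', P (n + 1) s' ∧ ‖s' - s‖ ≤ 3 * K * (η / 2 ^ n) :=
      fun n s hs => hstep n s hs (by rw [mul_zero]; positivity)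
    choose! F hF1 hF2 using hstep'
    let u : ℕ → A := fun n => Nat.rec 1 (fun n s => F n s) n
    have hu : ∀ n, P n (u n) := by
      intro n
      induction n with
      | zero => exact hP0
      | succ n ih => exact hF1 n (u n) ih
    have hd : ∀ n, dist (u n) (u (n + 1)) ≤ 6 * K * η / 2 / 2 ^ n := by
      intro n
      rw [dist_comm, dist_eq_norm]
      refine (hF2 n (u n) (hu n)).trans (le_of_eq ?_)
      field_simp
      ring
    obtain ⟨s, hs⟩ := cauchySeq_tendsto_of_complete (cauchySeq_of_le_geometric_two hd)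
    have hs1 : ‖s - 1‖ ≤ 6 * K * η := by
      have h1 := dist_le_of_le_geometric_two_of_tendsto₀ hd hs
      rw [dist_comm, dist_eq_norm] at h1
      exact h1
    have hint : ∀ a, T a * s - s * a = 0 := by
      intro a
      have h1 : Filter.Tendsto (fun n => T a * u n - u n * a) Filter.atTop
          (nhds (T a * s - s * a)) := (tendsto_const_nhds.mul hs).sub (hs.mul tendsto_const_nhds)
      have h2 : Filter.Tendsto (fun n => T a * u n - u n * a) Filter.atTop (nhds 0) := by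
        refine squeeze_zero_norm (fun n => (hu n).2 a) ?_
        have h3 : Filter.Tendsto (fun n : ℕ => η * ‖a‖ * (1 / 2 : ℝ) ^ n) Filter.atTop
            (nhds 0) := by
          have h4 := (tendsto_pow_atTop_nhds_zero_of_lt_one (by norm_num : (0 : ℝ) ≤ 1 / 2)
            (by norm_num)).const_mul (η * ‖a‖)
          rwa [mul_zero] at h4
        refine h3.congr fun n => ?_
        rw [one_div, inv_pow]
        field_simp
      exact tendsto_nhds_unique h1 h2
    obtain ⟨v, hv1, hv2⟩ := hfin s hs1 0 le_rfl (fun a => by rw [hint, norm_zero, zero_mul])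
    refine ⟨v, hv1, fun a => ?_⟩
    have h5 := hv2 a
    rw [mul_zero, zero_mul] at h5
    rw [mul_zero, zero_mul]
    exact h5
  · have hex : ∃ n : ℕ, η / 2 ^ n ≤ 18 * K * δ := by
      have hpos : 0 < 18 * K * δ := by positivity
      have h1 : Filter.Tendsto (fun n : ℕ => η * (1 / 2 : ℝ) ^ n) Filter.atTop (nhds 0) := by
        have h4 := (tendsto_pow_atTop_nhds_zero_of_lt_one (by norm_num : (0 : ℝ) ≤ 1 / 2)
          (by norm_num)).const_mul η
        rwa [mul_zero] at h4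
      obtain ⟨n, hn⟩ := (h1.eventually (gt_mem_nhds hpos)).exists
      refine ⟨n, ?_⟩
      rw [one_div, inv_pow, ← div_eq_mul_inv] at hn
      exact hn.le
    classical
    have hmin : ∀ k < Nat.find hex, 18 * K * δ < η / 2 ^ k := fun k hk =>
      not_le.1 (Nat.find_min hex hk)
    have hall : ∀ n ≤ Nat.find hex, ∃ s, P n s := by
      intro n
      induction n with
      | zero => exact fun _ => ⟨_, hP0⟩
      | succ n ih =>
        intro hn
        obtain ⟨s, hs⟩ := ih (by omega)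
        obtain ⟨s', hs', -⟩ := hstep n s hs (hmin n (by omega)).le
        exact ⟨s', hs'⟩
    obtain ⟨s, hs⟩ := hall _ le_rfl
    obtain ⟨v, hv1, hv2⟩ := hfin s (hs.1.trans (mul_le_of_le_one_right (by positivity) (by
      have : 0 ≤ 1 / (2 : ℝ) ^ (Nat.find hex) := by positivity
      linarith))) (18 * K * δ) (by positivity) (fun a => (hs.2 a).trans
        (mul_le_mul_of_nonneg_right (Nat.find_spec hex) (norm_nonneg _)))
    refine ⟨v, hv1, fun a => (hv2 a).trans (le_of_eq (by ring))⟩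

end

end Vale.Agent.P082.H770
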