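import Vale.Agent.P082.H770.Prod

/-!
# Banach algebras almost isomorphic to a Banach algebra with approximately vanishing cohomology
-/

namespace Vale.Agent.P082.H770

open Vale.Agent.P082.H304

section

variable {A : Type*} [NormedRing A] [NormedAlgebra ℂ A] {B : Type*} [NormedRing B]
  [NormedAlgebra ℂ B]

/-- **Almost isomorphisms are near isomorphisms.** -/
theorem near_iso [CompleteSpace A] {K : ℝ} (hK : 1 ≤ K) (hst : Stab A K) (T : A ≃L[ℂ] B)
    (L δ : ℝ) (hL : ‖(T : A →L[ℂ] B)‖ ≤ L) (hL' : ‖(T.symm : B →L[ℂ] A)‖ ≤ L) (hδ0 : 0 ≤ δ)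
    (hδ : 288 * K ^ 2 * (L * δ) ≤ 1)
    (hT : ∀ a b, ‖T (a * b) - T a * T b‖ ≤ δ * (‖a‖ * ‖b‖)) :
    ∃ S : A ≃L[ℂ] B, (∀ a b, S (a * b) = S a * S b) ∧
      ‖(S : A →L[ℂ] B) - (T : A →L[ℂ] B)‖ ≤ 24 * K * L ^ 2 * δ := by
  have hK0 : 0 ≤ K := by linarith
  have hL0 : 0 ≤ L := (norm_nonneg _).trans hL
  have hLδ : 0 ≤ L * δ := mul_nonneg hL0 hδ0
  obtain ⟨m, hm⟩ : ∃ m : A →L[ℂ] A →L[ℂ] A, ∀ a b, m a b = T.symm (T a * T b) :=
    ⟨(ContinuousLinearMap.compL ℂ A B A (T.symm : B →L[ℂ] A)).comp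
      ((ContinuousLinearMap.mul ℂ B).bilinearComp (T : A →L[ℂ] B) (T : A →L[ℂ] B)),
      fun a b => rfl⟩
  have hass : ∀ a b c, m (m a b) c = m a (m b c) := fun a b c => by
    simp only [hm, ContinuousLinearEquiv.apply_symm_apply, mul_assoc]
  have hdef : ∀ a b, ‖m a b - a * b‖ ≤ L * δ * (‖a‖ * ‖b‖) := fun a b => by
    have h1 : m a b - a * b = (T.symm : B →L[ℂ] A) (T a * T b - T (a * b)) := by
      rw [map_sub]
      change m a b - a * b = T.symm (T a * T b) - T.symm (T (a * b))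
      rw [T.symm_apply_apply, hm]
    rw [h1]
    calc ‖(T.symm : B →L[ℂ] A) (T a * T b - T (a * b))‖ ≤ L * ‖T a * T b - T (a * b)‖ :=
          (T.symm : B →L[ℂ] A).le_of_opNorm_le hL' _
      _ ≤ L * (δ * (‖a‖ * ‖b‖)) := by
          rw [norm_sub_rev]
          exact mul_le_mul_of_nonneg_left (hT a b) hL0
      _ = L * δ * (‖a‖ * ‖b‖) := by ring
  obtain ⟨T₀, h1, h2⟩ := rigid hK hst m hass (L * δ) hLδ hδ hdef
  have hsmall : 12 * K * (L * δ) ≤ 1 / 2 := by
    have h3 : K * (L * δ) ≤ K ^ 2 * (L * δ) := by nlinarith [mul_nonneg hK0 hLδ]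
    nlinarith
  refine ⟨T₀.symm.trans T, fun x y => ?_, ?_⟩
  · have h3 : T₀.symm (x * y) = m (T₀.symm x) (T₀.symm y) := by
      rw [ContinuousLinearEquiv.symm_apply_eq, h1, T₀.apply_symm_apply, T₀.apply_symm_apply]
    change T (T₀.symm (x * y)) = T (T₀.symm x) * T (T₀.symm y)
    rw [h3, hm, T.apply_symm_apply]
  · refine ContinuousLinearMap.opNorm_le_bound _ (by positivity) fun x => ?_
    set y := T₀.symm x with hy
    have hxy : T₀ y = x := T₀.apply_symm_apply x
    have h3 : ‖y - x‖ ≤ 12 * K * (L * δ) * ‖y‖ := by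
      have h4 := ((T₀ : A →L[ℂ] A) - ContinuousLinearMap.id ℂ A).le_of_opNorm_le h2 y
      change ‖T₀ y - y‖ ≤ _ at h4
      rw [hxy] at h4
      rw [norm_sub_rev]
      exact h4
    have h5 : ‖y‖ ≤ 2 * ‖x‖ := by
      have h6 : ‖y‖ ≤ ‖x‖ + ‖y - x‖ := by
        have h7 : y = x + (y - x) := by abel
        conv_lhs => rw [h7]
        exact norm_add_le _ _
      have h8 : 12 * K * (L * δ) * ‖y‖ ≤ 1 / 2 * ‖y‖ :=
        mul_le_mul_of_nonneg_right hsmall (norm_nonneg _)
      linarith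
    have h9 : (((T₀.symm.trans T : A ≃L[ℂ] B) : A →L[ℂ] B) - (T : A →L[ℂ] B)) x
        = (T : A →L[ℂ] B) (y - x) := by
      rw [map_sub]
      rfl
    rw [h9]
    calc ‖(T : A →L[ℂ] B) (y - x)‖ ≤ L * ‖y - x‖ := (T : A →L[ℂ] B).le_of_opNorm_le hL _
      _ ≤ L * (12 * K * (L * δ) * (2 * ‖x‖)) := by
          refine mul_le_mul_of_nonneg_left (h3.trans ?_) hL0
          exact mul_le_mul_of_nonneg_left h5 (by positivity)
      _ = 24 * K * L ^ 2 * δ * ‖x‖ := by ring

/-- the differential commutes with isomorphisms -/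
lemma hochschild_iso {k : ℕ} (S : A ≃L[ℂ] B) (hS : ∀ a b, S (a * b) = S a * S b)
    (g : (Fin k → A) → A) (a : Fin (k + 1) → B) :
    hochschild (fun x : Fin k → B => S (g fun i => S.symm (x i))) a
      = S (hochschild g fun i => S.symm (a i)) := by
  have hS' : ∀ x y, S.symm (x * y) = S.symm x * S.symm y := fun x y => by
    rw [ContinuousLinearEquiv.symm_apply_eq, hS, S.apply_symm_apply, S.apply_symm_apply]
  have hc : ∀ j : Fin k, (fun i => S.symm (contract j a i)) = contract j fun i => S.symm (a i) := by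
    intro j
    funext i
    unfold contract
    split_ifs
    · rfl
    · exact hS' _ _
    · rfl
  have hneg : ∀ (n : ℕ) (x : A), S ((-1) ^ n * x) = (-1) ^ n * S x := by
    intro n
    induction n with
    | zero => intro x; rw [pow_zero, pow_zero, one_mul, one_mul]
    | succ n ih =>
      intro x
      rw [pow_succ, pow_succ, mul_assoc, mul_assoc, ih, neg_one_mul, neg_one_mul, map_neg]
  unfold hochschild
  rw [map_add, map_add, hS, S.apply_symm_apply, map_sum, hneg, hS, S.apply_symm_apply]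
  congr 2
  refine Finset.sum_congr rfl fun j _ => ?_
  rw [hneg, ← hc]

/-- vanishing of the bounded cohomology is invariant under isomorphisms of Banach algebras -/
theorem vanishes_iso {k : ℕ} (S : A ≃L[ℂ] B) (hS : ∀ a b, S (a * b) = S a * S b)
    (h : BoundedCohomologyVanishes A k) : BoundedCohomologyVanishes B k := by
  intro f hf
  obtain ⟨g, hg⟩ := h ((S.symm : B →L[ℂ] A).compContinuousMultilinearMap
    (f.compContinuousLinearMap fun _ => (S : A →L[ℂ] B))) (fun a => by
      have hS' : ∀ x y, S.symm (x * y) = S.symm x * S.symm y := fun x y => by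
        rw [ContinuousLinearEquiv.symm_apply_eq, hS, S.apply_symm_apply, S.apply_symm_apply]
      have h1 := hochschild_iso S.symm hS' (fun x => f x) a
      change hochschild (fun x : Fin (k + 1) → A => S.symm (f fun i => S (x i))) a = 0
      have h3 : (fun x : Fin (k + 1) → A => S.symm (f fun i => S.symm.symm (x i)))
          = fun x : Fin (k + 1) → A => S.symm (f fun i => S (x i)) := rfl
      rw [← h3, h1]
      have h4 : hochschild (fun x => f x) (fun i => S.symm.symm (a i)) = 0 := hf _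
      rw [h4, map_zero])
  refine ⟨(S : A →L[ℂ] B).compContinuousMultilinearMap
    (g.compContinuousLinearMap fun _ => (S.symm : B →L[ℂ] A)), fun a => ?_⟩
  have h1 := hochschild_iso S hS (fun x => g x) a
  change hochschild (fun x : Fin k → B => S (g fun i => S.symm (x i))) a = f a
  rw [h1, hg]
  change S (S.symm (f fun i => S (S.symm (a i)))) = f a
  simp

end

end Vale.Agent.P082.H770
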