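import Vale.Agent.P082.H770.Star

/-!
# Almost *-isomorphisms are near *-isomorphisms
-/

namespace Vale.Agent.P082.H770

open Vale.Agent.P082.H304

section

variable {A : Type*} [NormedRing A] [StarRing A] [CStarRing A] [NormedAlgebra ℂ A]
  [StarModule ℂ A] [CompleteSpace A] {B : Type*} [NormedRing B] [StarRing B] [CStarRing B]
  [NormedAlgebra ℂ B] [StarModule ℂ B]

/-- conjugation by a unit -/
noncomputable def conjL (k : Aˣ) : A ≃L[ℂ] A :=
  ContinuousLinearEquiv.equivOfInverse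
    ((ContinuousLinearMap.mul ℂ A ((k⁻¹ : Aˣ) : A)).comp ((ContinuousLinearMap.mul ℂ A).flip k))
    ((ContinuousLinearMap.mul ℂ A (k : A)).comp
      ((ContinuousLinearMap.mul ℂ A).flip ((k⁻¹ : Aˣ) : A)))
    (fun a => by
      change (k : A) * (((k⁻¹ : Aˣ) : A) * (a * k) * ((k⁻¹ : Aˣ) : A)) = a
      rw [mul_assoc, Units.mul_inv_cancel_left, Units.mul_inv_cancel_right])
    (fun a => by
      change ((k⁻¹ : Aˣ) : A) * ((k : A) * (a * ((k⁻¹ : Aˣ) : A)) * k) = a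
      rw [mul_assoc, Units.inv_mul_cancel_left, Units.inv_mul_cancel_right])

omit [StarRing A] [CStarRing A] [StarModule ℂ A] [CompleteSpace A] in
lemma conjL_apply (k : Aˣ) (a : A) : conjL k a = ((k⁻¹ : Aˣ) : A) * (a * k) := rfl

/-- **Almost *-isomorphisms are near *-isomorphisms.** -/
theorem near_star_iso [NormOneClass A] {K : ℝ} (hK : 1 ≤ K) (hst : Stab A K) (hst1 : Stab1 A K)
    (T : A ≃L[ℂ] B) (L δ : ℝ) (hL1 : 1 ≤ L) (hL : ‖(T : A →L[ℂ] B)‖ ≤ L)
    (hL' : ‖(T.symm : B →L[ℂ] A)‖ ≤ L) (hδ0 : 0 ≤ δ)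
    (hδ : 4608 * K ^ 2 * (L ^ 3 * δ) ≤ 1)
    (hT : ∀ a b, ‖T (a * b) - T a * T b‖ ≤ δ * (‖a‖ * ‖b‖))
    (hstar : ∀ a, T (star a) = star (T a)) :
    ∃ S : A ≃L[ℂ] B, (∀ a b, S (a * b) = S a * S b) ∧ (∀ a, S (star a) = star (S a)) ∧
      ‖(S : A →L[ℂ] B) - (T : A →L[ℂ] B)‖ ≤ 4632 * K ^ 2 * L ^ 4 * δ := by
  have hK0 : 0 ≤ K := by linarith
  have hL0 : 0 ≤ L := by linarith
  have hKK : K ≤ K ^ 2 := by nlinarith
  have hLL3 : L ≤ L ^ 3 := by
    have h1 : 1 ≤ L ^ 2 := one_le_pow₀ hL1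
    nlinarith
  have hLδ : L * δ ≤ L ^ 3 * δ := mul_le_mul_of_nonneg_right hLL3 hδ0
  have hL3δ : 0 ≤ L ^ 3 * δ := by positivity
  obtain ⟨S, hS1, hS2⟩ := near_iso hK hst T L δ hL hL' hδ0 (by nlinarith [sq_nonneg K]) hT
  set κ := 24 * K * L ^ 2 * δ with hκ
  have hκ0 : 0 ≤ κ := by positivity
  have hLκ : L * κ ≤ 1 / 2 := by
    have h1 : L * κ = 24 * (K * (L ^ 3 * δ)) := by rw [hκ]; ring
    have h2 : K * (L ^ 3 * δ) ≤ K ^ 2 * (L ^ 3 * δ) := mul_le_mul_of_nonneg_right hKK hL3δ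
    rw [h1]
    linarith
  have hκL : κ ≤ L := by nlinarith
  have hST : ∀ x, ‖S x - T x‖ ≤ κ * ‖x‖ := fun x =>
    ((S : A →L[ℂ] B) - (T : A →L[ℂ] B)).le_of_opNorm_le hS2 x
  have hSb : ∀ x, ‖S x‖ ≤ 2 * L * ‖x‖ := fun x => by
    have h1 : ‖T x‖ ≤ L * ‖x‖ := (T : A →L[ℂ] B).le_of_opNorm_le hL x
    have h2 : ‖S x‖ ≤ ‖T x‖ + ‖S x - T x‖ := by
      have h3 : S x = T x + (S x - T x) := by abel
      conv_lhs => rw [h3]
      exact norm_add_le _ _
    have h4 := hST x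
    have h5 : κ * ‖x‖ ≤ L * ‖x‖ := mul_le_mul_of_nonneg_right hκL (norm_nonneg _)
    linarith
  have hSlow : ∀ y, ‖y‖ ≤ 2 * L * ‖S y‖ := fun y => by
    have h1 : ‖y‖ ≤ L * ‖T y‖ := by
      have h2 := (T.symm : B →L[ℂ] A).le_of_opNorm_le hL' (T y)
      change ‖T.symm (T y)‖ ≤ _ at h2
      rwa [T.symm_apply_apply] at h2
    have h2 : ‖T y‖ ≤ ‖S y‖ + κ * ‖y‖ := by
      have h3 : T y = S y - (S y - T y) := by abel
      conv_lhs => rw [h3]
      exact (norm_sub_le _ _).trans (by linarith [hST y])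
    have h4 : ‖y‖ ≤ L * ‖S y‖ + L * κ * ‖y‖ := by
      refine h1.trans ((mul_le_mul_of_nonneg_left h2 hL0).trans (le_of_eq ?_))
      ring
    have h5 : L * κ * ‖y‖ ≤ 1 / 2 * ‖y‖ := mul_le_mul_of_nonneg_right hLκ (norm_nonneg _)
    linarith
  -- the automorphism `α`
  obtain ⟨α, hα⟩ : ∃ α : A →L[ℂ] A, ∀ x, α x = S.symm (star (S (star x))) :=
    ⟨LinearMap.mkContinuous
      { toFun := fun x => S.symm (star (S (star x)))
        map_add' := fun x y => by simp only [star_add, map_add]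
        map_smul' := fun c x => by
          simp only [star_smul, map_smul, star_star, RingHom.id_apply] }
      (‖(S.symm : B →L[ℂ] A)‖ * ‖(S : A →L[ℂ] B)‖) fun x => by
        have h1 := (S.symm : B →L[ℂ] A).le_opNorm (star (S (star x)))
        have h2 := (S : A →L[ℂ] B).le_opNorm (star x)
        rw [norm_star] at h1 h2
        calc ‖S.symm (star (S (star x)))‖ ≤ ‖(S.symm : B →L[ℂ] A)‖ * ‖S (star x)‖ := h1
          _ ≤ ‖(S.symm : B →L[ℂ] A)‖ * (‖(S : A →L[ℂ] B)‖ * ‖x‖) :=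
              mul_le_mul_of_nonneg_left h2 (norm_nonneg _)
          _ = _ := by ring, fun x => rfl⟩
  have hSα : ∀ x, S (α x) = star (S (star x)) := fun x => by
    rw [hα, S.apply_symm_apply]
  have hαm : ∀ x y, α (x * y) = α x * α y := fun x y => by
    apply S.injective
    rw [hS1, hSα, hSα, hSα, star_mul, hS1, star_mul]
  set η := 96 * K * (L ^ 3 * δ) with hη
  have hη0 : 0 ≤ η := by positivity
  have hαd : ∀ x, ‖α x - x‖ ≤ η * ‖x‖ := fun x => by
    have h1 : S (α x - x) = star (S (star x) - T (star x)) - (S x - T x) := by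
      rw [map_sub, hSα, star_sub, hstar, star_star]
      abel
    have h2 : ‖S (α x - x)‖ ≤ 2 * κ * ‖x‖ := by
      rw [h1]
      refine (norm_sub_le _ _).trans ?_
      rw [norm_star]
      have h3 := hST (star x)
      rw [norm_star] at h3
      linarith [hST x]
    calc ‖α x - x‖ ≤ 2 * L * ‖S (α x - x)‖ := hSlow _
      _ ≤ 2 * L * (2 * κ * ‖x‖) := mul_le_mul_of_nonneg_left h2 (by positivity)
      _ = η * ‖x‖ := by rw [hκ, hη]; ring
  have h48 : 48 * K * η ≤ 1 := by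
    refine le_trans (le_of_eq ?_) hδ
    rw [hη]
    ring
  obtain ⟨s, hs1, hs2⟩ := near_inner hK hst1 α η 0 hη0 le_rfl h48 hαd
    (fun a b => by rw [hαm, sub_self, norm_zero, zero_mul])
  have hs3 : ∀ a, α a = s * a * ((s⁻¹ : Aˣ) : A) := fun a => by
    have h1 := hs2 a
    rw [mul_zero, zero_mul] at h1
    exact sub_eq_zero.1 (norm_le_zero_iff.1 h1)
  have hinv : ∀ b, α (star (α b)) = star b := fun b => by
    apply S.injective
    rw [hSα, star_star, hSα, star_star]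
  have hint1 : ∀ b, α b * s = s * b := fun b => by
    rw [hs3, Units.inv_mul_cancel_right]
  have hint2 : ∀ b, α b * star (s : A) = star (s : A) * b := fun b => by
    have h1 : star (α b) = ((s⁻¹ : Aˣ) : A) * star b * s := by
      have h2 := hinv b
      rw [hs3] at h2
      rw [← h2, ← mul_assoc, ← mul_assoc, Units.inv_mul, one_mul, Units.inv_mul_cancel_right]
    have h3 : α b = star (s : A) * b * star ((s⁻¹ : Aˣ) : A) := by
      rw [← star_star (α b), h1, star_mul, star_mul, star_star, mul_assoc]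
    rw [h3, mul_assoc, ← star_mul, Units.mul_inv, star_one, mul_one]
  -- the selfadjoint intertwiner
  set p : A := (2 : ℂ)⁻¹ • ((s : A) + star (s : A)) with hp
  have hpsa : IsSelfAdjoint p := by
    rw [isSelfAdjoint_iff, hp, star_smul, star_add, star_star, add_comm]
    congr 1
    simp
  have hpint : ∀ b, α b * p = p * b := fun b => by
    rw [hp, mul_smul_comm, smul_mul_assoc, mul_add, add_mul, hint1, hint2]
  have hp1 : ‖p - 1‖ ≤ 6 * K * η := by
    have h1 : p - 1 = (2 : ℂ)⁻¹ • (((s : A) - 1) + (star (s : A) - 1)) := by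
      have h2 : (1 : A) = (2 : ℂ)⁻¹ • ((1 : A) + 1) := by
        rw [← two_smul ℂ (1 : A), inv_smul_smul₀ two_ne_zero]
      rw [hp]
      conv_lhs => rw [h2]
      rw [← smul_sub]
      congr 1
      abel
    have h3 : ‖star (s : A) - 1‖ ≤ 6 * K * η := by
      rw [← star_one A, ← star_sub, norm_star]
      exact hs1
    rw [h1, norm_smul]
    have h4 := norm_add_le ((s : A) - 1) (star (s : A) - 1)
    have h5 : ‖(2 : ℂ)⁻¹‖ = 1 / 2 := by norm_num
    rw [h5]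
    linarith
  have hsmall : 6 * K * η ≤ 1 / 8 := by linarith
  obtain ⟨k, hk1, hk2, hk3, hk4⟩ := exists_invsqrt p hpsa (hp1.trans (by linarith))
  have hk5 : ‖k - 1‖ ≤ 6 * K * η := hk4.trans hp1
  obtain ⟨hkn, ku, hku, hku2⟩ := exists_unit k (hk5.trans (by linarith))
  have hkinv : ((ku⁻¹ : Aˣ) : A) = p * k := by
    symm
    refine Units.eq_inv_of_mul_eq_one_left ?_
    rw [hku, ← hk2, ← mul_assoc, hk3]
  have hkinv' : star ((ku⁻¹ : Aˣ) : A) = ((ku⁻¹ : Aˣ) : A) := by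
    rw [hkinv, star_mul, hk1.star_eq, hpsa.star_eq, hk2]
  have hpkk : p * (k * k) = 1 := by
    rw [← mul_assoc, ← hk2, mul_assoc, ← hk2, ← mul_assoc, hk3]
  -- `α (k c k⁻¹) = k⁻¹ c k`
  have hαk : ∀ c, α (k * c * ((ku⁻¹ : Aˣ) : A)) = ((ku⁻¹ : Aˣ) : A) * c * k := fun c => by
    have h1 := hpint (k * c * ((ku⁻¹ : Aˣ) : A))
    have h2 : α (k * c * ((ku⁻¹ : Aˣ) : A))
        = α (k * c * ((ku⁻¹ : Aˣ) : A)) * p * (k * k) := by
      rw [mul_assoc (α _) p (k * k), hpkk, mul_one]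
    rw [h2, h1]
    have h3 : p * (k * c * ((ku⁻¹ : Aˣ) : A)) * (k * k)
        = (p * k) * c * (((ku⁻¹ : Aˣ) : A) * k * k) := by noncomm_ring
    have h4 : ((ku⁻¹ : Aˣ) : A) * k = 1 := by rw [← hku, Units.inv_mul]
    rw [h3, h4, one_mul, ← hkinv]
  refine ⟨(conjL ku).trans S, fun a b => ?_, fun a => ?_, ?_⟩
  · change S (conjL ku (a * b)) = S (conjL ku a) * S (conjL ku b)
    rw [← hS1, conjL_apply, conjL_apply, conjL_apply]
    congr 1
    have h1 : ((ku⁻¹ : Aˣ) : A) * (a * ku) * (((ku⁻¹ : Aˣ) : A) * (b * ku))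
        = ((ku⁻¹ : Aˣ) : A) * a * ((ku : A) * ((ku⁻¹ : Aˣ) : A)) * b * ku := by noncomm_ring
    rw [h1, Units.mul_inv]
    noncomm_ring
  · change S (conjL ku (star a)) = star (S (conjL ku a))
    rw [conjL_apply, conjL_apply]
    have h1 := hSα (star (((ku⁻¹ : Aˣ) : A) * (a * ku)))
    rw [star_star] at h1
    rw [← h1]
    congr 1
    rw [star_mul, star_mul, hkinv', hku, hk1.star_eq]
    have h2 : k * star a * ((ku⁻¹ : Aˣ) : A) = k * star a * ((ku⁻¹ : Aˣ) : A) := rfl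
    rw [hαk, mul_assoc]
  · refine ContinuousLinearMap.opNorm_le_bound _ (by positivity) fun a => ?_
    have h1 : ((((conjL ku).trans S : A ≃L[ℂ] B) : A →L[ℂ] B) - (T : A →L[ℂ] B)) a
        = S (((ku⁻¹ : Aˣ) : A) * (a * k - k * a)) + (S a - T a) := by
      have h2 : ((ku⁻¹ : Aˣ) : A) * (a * k - k * a) = conjL ku a - a := by
        rw [conjL_apply, mul_sub, ← hku, ← mul_assoc ((ku⁻¹ : Aˣ) : A) (ku : A) a,
          Units.inv_mul, one_mul]
      rw [h2, map_sub]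
      change S (conjL ku a) - T a = S (conjL ku a) - S a + (S a - T a)
      abel
    rw [h1]
    have h2 : a * k - k * a = a * (k - 1) - (k - 1) * a := by noncomm_ring
    have h3 : ‖a * k - k * a‖ ≤ 2 * (6 * K * η) * ‖a‖ := by
      rw [h2]
      have h4 : ‖a * (k - 1)‖ ≤ ‖a‖ * (6 * K * η) := (norm_mul_le _ _).trans (by gcongr)
      have h5 : ‖(k - 1) * a‖ ≤ (6 * K * η) * ‖a‖ := (norm_mul_le _ _).trans (by gcongr)
      refine (norm_sub_le _ _).trans ?_
      linarith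
    have h4 : ‖((ku⁻¹ : Aˣ) : A) * (a * k - k * a)‖ ≤ 2 * (2 * (6 * K * η) * ‖a‖) :=
      (norm_mul_le _ _).trans (by gcongr)
    have h5 : ‖S (((ku⁻¹ : Aˣ) : A) * (a * k - k * a))‖
        ≤ 2 * L * (2 * (2 * (6 * K * η) * ‖a‖)) :=
      (hSb _).trans (mul_le_mul_of_nonneg_left h4 (by positivity))
    refine (norm_add_le _ _).trans ((add_le_add h5 (hST a)).trans ?_)
    have h6 : 2 * L * (2 * (2 * (6 * K * η) * ‖a‖)) = 4608 * K ^ 2 * L ^ 4 * δ * ‖a‖ := by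
      rw [hη]
      ring
    have h7 : κ * ‖a‖ ≤ 24 * K ^ 2 * L ^ 4 * δ * ‖a‖ := by
      refine mul_le_mul_of_nonneg_right ?_ (norm_nonneg _)
      have h8 : L ^ 2 ≤ L ^ 4 := pow_le_pow_right₀ hL1 (by norm_num)
      have h9 : K * L ^ 2 ≤ K ^ 2 * L ^ 4 := mul_le_mul hKK h8 (by positivity) (by positivity)
      rw [hκ]
      calc 24 * K * L ^ 2 * δ = 24 * (K * L ^ 2) * δ := by ring
        _ ≤ 24 * (K ^ 2 * L ^ 4) * δ := by gcongr
        _ = 24 * K ^ 2 * L ^ 4 * δ := by ring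
    rw [h6]
    linarith

end

end Vale.Agent.P082.H770
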