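import Vale.Agent.P082.H304.Rigid
import Vale.Agent.P082.H770.Defs
import Vale.Agent.P082.H770.StarIso

/-!
# Universal constants of stability for all von Neumann algebras
-/

namespace Vale.Agent.P082.H770

open Vale.Agent.P082.H304

universe u v

section

variable {A : Type*} [NormedRing A] [NormedAlgebra ℂ A]

lemma stab_mono {K K' : ℝ} (hK : K ≤ K') (h : Stab A K) : Stab A K' := by
  intro f c hc0 hf
  obtain ⟨g, hg1, hg2⟩ := h f c hc0 hf
  refine ⟨g, hg1.trans (by gcongr), fun x y => ?_⟩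
  refine (hg2 x y).trans ?_
  gcongr

lemma stab1_mono {K K' : ℝ} (hK : K ≤ K') (h : Stab1 A K) : Stab1 A K' := by
  intro f c hc0 hf
  obtain ⟨g, hg1, hg2⟩ := h f c hc0 hf
  refine ⟨g, hg1.trans (by gcongr), fun x => ?_⟩
  refine (hg2 x).trans ?_
  gcongr

/-- a common constant -/
lemma exists_const : ∃ K : ℝ, 1 ≤ K ∧ ∀ (H : Type u) [NormedAddCommGroup H]
    [InnerProductSpace ℂ H] [CompleteSpace H] (M : VonNeumannAlgebra H),
    Stab M.toStarSubalgebra K ∧ Stab1 M.toStarSubalgebra K := by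
  obtain ⟨K₁, hK₁, h₁⟩ := uniform₂.{u} 1
  obtain ⟨K₀, hK₀, h₀⟩ := uniform₂.{u} 0
  refine ⟨K₁ * (1 + K₁ * 4) + K₀ * (1 + K₀ * 3), by nlinarith, fun H _ _ _ M => ⟨?_, ?_⟩⟩
  · exact stab_mono (K := K₁ * (1 + K₁ * 4)) (by nlinarith)
      (stab_of_vanishing (by linarith) (h₁ H M).1 (h₁ H M).2)
  · exact stab1_mono (K := K₀ * (1 + K₀ * 3)) (by nlinarith)
      (stab1_of_vanishing (by linarith) (h₀ H M).1 (h₀ H M).2)

end

/-- a linear map near the identity as a bounded operator -/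
lemma exists_op {A : Type*} [NormedRing A] [NormedAlgebra ℂ A] {T : A → A} {η : ℝ}
    (hT : IsLinearMap ℂ T) (hn : Near T id η) : ∃ T' : A →L[ℂ] A, ∀ a, T' a = T a := by
  refine ⟨LinearMap.mkContinuous (hT.mk' T) (1 + η) fun a => ?_, fun a => rfl⟩
  have h1 : T a = a + (T a - a) := by abel
  change ‖T a‖ ≤ _
  rw [h1, add_mul, one_mul]
  exact (norm_add_le _ _).trans (add_le_add le_rfl (hn a))

/-- a bilinear map near the product as a bounded bilinear map -/
lemma exists_bil {A : Type*} [NormedRing A] [NormedAlgebra ℂ A] {m : A → A → A} {η : ℝ}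
    (h1 : ∀ a, IsLinearMap ℂ (m a)) (h2 : ∀ b, IsLinearMap ℂ fun a => m a b)
    (hn : ∀ a b, ‖m a b - a * b‖ ≤ η * ‖a‖ * ‖b‖) :
    ∃ m' : A →L[ℂ] A →L[ℂ] A, ∀ a b, m' a b = m a b := by
  refine ⟨LinearMap.mkContinuous₂ (LinearMap.mk₂ ℂ m (fun a b c => (h2 c).map_add a b)
    (fun c a b => (h2 b).map_smul c a) (fun a b c => (h1 a).map_add b c)
    (fun c a b => (h1 a).map_smul c b)) (1 + η) fun a b => ?_, fun a b => rfl⟩
  have h3 : m a b = a * b + (m a b - a * b) := by abel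
  change ‖m a b‖ ≤ _
  rw [h3, add_mul, one_mul, add_mul]
  exact (norm_add_le _ _).trans (add_le_add (norm_mul_le _ _) (hn a b))

/-- a linear bijection bounded in both directions as an equivalence -/
lemma exists_equiv' {A B : Type*} [NormedRing A] [NormedAlgebra ℂ A] [NormedRing B]
    [NormedAlgebra ℂ B] {L δ : ℝ} (hL : 1 ≤ L) {T : A → B} (hT : AlmostIsomorphism L δ T) :
    ∃ T' : A ≃L[ℂ] B, (∀ a, T' a = T a) ∧ ‖(T' : A →L[ℂ] B)‖ ≤ L ∧
      ‖(T'.symm : B →L[ℂ] A)‖ ≤ L := by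
  obtain ⟨h1, h2, h3, h4⟩ := hT
  have hinj : Function.Injective (h1.mk' T) := by
    rw [injective_iff_map_eq_zero]
    intro a ha
    have h5 := (h3 a).2
    have h6 : T a = 0 := ha
    rw [h6, norm_zero, mul_zero] at h5
    exact norm_le_zero_iff.1 h5
  let e : A ≃ₗ[ℂ] B := LinearEquiv.ofBijective (h1.mk' T) ⟨hinj, h2⟩
  have he : ∀ a, e a = T a := fun a => rfl
  have h5 : ∀ x, ‖e x‖ ≤ L * ‖x‖ := fun x => (h3 x).1
  have h6 : ∀ x, ‖e.symm x‖ ≤ L * ‖x‖ := fun x => by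
    have h7 := (h3 (e.symm x)).2
    rwa [← he, e.apply_symm_apply] at h7
  refine ⟨LinearEquiv.toContinuousLinearEquivOfBounds e L L h5 h6, fun a => rfl, ?_, ?_⟩
  · exact ContinuousLinearMap.opNorm_le_bound _ (by linarith) h5
  · exact ContinuousLinearMap.opNorm_le_bound _ (by linarith) h6

section

variable {A : Type*} [NormedRing A] [StarRing A] [CStarRing A] [NormedAlgebra ℂ A]
  [StarModule ℂ A] [CompleteSpace A]

lemma eps_bound {K x : ℝ} (hK : 1 ≤ K) (hx : x ≤ 1 / (4608 * K ^ 2)) :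
    4608 * K ^ 2 * x ≤ 1 := by
  have h1 : 0 < 4608 * K ^ 2 := by positivity
  rw [le_div_iff₀ h1] at hx
  linarith

theorem stable_automorphisms {K : ℝ} (hK : 1 ≤ K) (hst : Stab1 A K) :
    StableAutomorphisms A (1 / (4608 * K ^ 2)) (4632 * K ^ 2) := by
  intro T₀ η δ hlin hη0 hη hδ0 hdef hT
  rcases subsingleton_or_nontrivial A with hs | hs
  · have h0 : ∀ x : A, ‖x‖ = 0 := fun x => by rw [Subsingleton.elim x 0, norm_zero]
    refine ⟨⟨1, ?_, fun a => ?_⟩, fun _ => ⟨1, one_mem _, ?_, fun a => ?_⟩⟩ <;> rw [h0] <;>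
      positivity
  obtain ⟨T, hTT⟩ := exists_op hlin hdef
  have hK0 : 0 ≤ K := by linarith
  have h1 := eps_bound hK hη
  have h2 : 48 * K * η ≤ 1 := by
    have h3 : K * η ≤ K ^ 2 * η := mul_le_mul_of_nonneg_right (by nlinarith) hη0
    have h4 : 0 ≤ K ^ 2 * η := by positivity
    linarith
  have hdef' : ∀ a, ‖T a - a‖ ≤ η * ‖a‖ := fun a => by
    rw [hTT]
    exact hdef a
  have hT' : ∀ a b, ‖T (a * b) - T a * T b‖ ≤ δ * (‖a‖ * ‖b‖) := fun a b => by
    rw [← mul_assoc, hTT, hTT, hTT]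
    exact hT a b
  have hKK : K ≤ K ^ 2 := by nlinarith
  refine ⟨?_, fun hstar => ?_⟩
  · obtain ⟨s, h3, h4⟩ := near_inner hK hst T η δ hη0 hδ0 h2 hdef' hT'
    refine ⟨s, h3.trans ?_, fun a => ?_⟩
    · exact mul_le_mul_of_nonneg_right (by nlinarith) hη0
    · rw [← hTT]
      refine (h4 a).trans (mul_le_mul_of_nonneg_right ?_ (norm_nonneg _))
      exact mul_le_mul_of_nonneg_right (by nlinarith) hδ0
  · obtain ⟨s, h3, h4⟩ := near_unitary hK hst T η δ hη0 hδ0 h2 hdef' hT'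
      (fun a => by rw [hTT, hTT, hstar])
    refine ⟨s, s.2, h3.trans ?_, fun a => ?_⟩
    · exact mul_le_mul_of_nonneg_right (by nlinarith) hη0
    · rw [← hTT]
      refine (h4 a).trans (mul_le_mul_of_nonneg_right ?_ (norm_nonneg _))
      exact mul_le_mul_of_nonneg_right (by nlinarith) hδ0

omit [StarRing A] [CStarRing A] [StarModule ℂ A] in
theorem stable_products {K : ℝ} (hK : 1 ≤ K) (hst : Stab A K) :
    StableProducts A (1 / (4608 * K ^ 2)) (4632 * K ^ 2) := by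
  intro m₀ η δ hl1 hl2 hη0 hη hδ0 hdef hm
  obtain ⟨m, hmm⟩ := exists_bil hl1 hl2 hdef
  have hK0 : 0 ≤ K := by linarith
  have h1 := eps_bound hK hη
  have hKK : K ≤ K ^ 2 := by nlinarith
  have h2 : 0 ≤ K ^ 2 * η := by positivity
  obtain ⟨T, h3, h4⟩ := near_assoc hK hst m η δ hη0 hδ0 (by linarith)
    (fun a b => by rw [← mul_assoc, hmm]; exact hdef a b)
    (fun a b c => by rw [← mul_assoc, ← mul_assoc, hmm, hmm, hmm, hmm]; exact hm a b c)
  refine ⟨T, ⟨map_add T, map_smul T⟩, T.bijective, fun a => ?_, fun a b => ?_⟩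
  · have h5 := ((T : A →L[ℂ] A) - ContinuousLinearMap.id ℂ A).le_of_opNorm_le h3 a
    refine h5.trans (mul_le_mul_of_nonneg_right ?_ (norm_nonneg _))
    exact mul_le_mul_of_nonneg_right (by nlinarith) hη0
  · rw [← hmm]
    refine (h4 a b).trans ?_
    rw [mul_assoc (4632 * K ^ 2 * δ)]
    refine mul_le_mul_of_nonneg_right ?_ (by positivity)
    exact mul_le_mul_of_nonneg_right (by nlinarith) hδ0

omit [StarRing A] [CStarRing A] [StarModule ℂ A] [CompleteSpace A] in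
lemma map_one_of_mul {B : Type*} [NormedRing B] [NormedAlgebra ℂ B] (S : A ≃L[ℂ] B)
    (h3 : ∀ a b, S (a * b) = S a * S b) : S 1 = 1 := by
  have h7 : ∀ b, S 1 * b = b := fun b => by
    have h8 := h3 1 (S.symm b)
    rw [one_mul, S.apply_symm_apply] at h8
    exact h8.symm
  have h9 := h7 1
  rwa [mul_one] at h9

omit [StarRing A] [CStarRing A] [StarModule ℂ A] in
theorem stable_isomorphisms {K : ℝ} (hK : 1 ≤ K) (hst : Stab A K)
    (hvan : ∀ k, BoundedCohomologyVanishes A k) :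
    StableIsomorphisms.{v} A (1 / (4608 * K ^ 2)) (4632 * K ^ 2) := by
  intro B _ _ T₀ L δ hL1 hδ0 hδ hT
  obtain ⟨T, hTT, hL, hL'⟩ := exists_equiv' hL1 hT
  have hK0 : 0 ≤ K := by linarith
  have h1 := eps_bound hK hδ
  have hKK : K ≤ K ^ 2 := by nlinarith
  have h2 : 0 ≤ K ^ 2 * (L * δ) := by positivity
  obtain ⟨S, h3, h4⟩ := near_iso hK hst T L δ hL hL' hδ0 (by linarith)
    (fun a b => by rw [← mul_assoc, hTT, hTT, hTT]; exact hT.2.2.2 a b)
  refine ⟨⟨AlgEquiv.ofLinearEquiv S.toLinearEquiv (map_one_of_mul S h3) h3, fun a => ?_⟩,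
    fun k => vanishes_iso S h3 (hvan k)⟩
  have h5 := ((S : A →L[ℂ] B) - (T : A →L[ℂ] B)).le_of_opNorm_le h4 a
  change ‖S a - T₀ a‖ ≤ _
  rw [← hTT]
  refine h5.trans (mul_le_mul_of_nonneg_right ?_ (norm_nonneg _))
  refine mul_le_mul_of_nonneg_right ?_ hδ0
  exact mul_le_mul_of_nonneg_right (by nlinarith) (by positivity)

theorem stable_star_isomorphisms {K : ℝ} (hK : 1 ≤ K) (hst : Stab A K) (hst1 : Stab1 A K) :
    StableStarIsomorphisms.{v} A (1 / (4608 * K ^ 2)) (4632 * K ^ 2) := by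
  intro B _ T₀ L δ hL1 hδ0 hδ hT hstar
  obtain ⟨T, hTT, hL, hL'⟩ := exists_equiv' hL1 hT
  rcases subsingleton_or_nontrivial A with hs | hs
  · have hB : ∀ x : B, x = 0 := fun x => by
      rw [← T.apply_symm_apply x, Subsingleton.elim (T.symm x) 0, map_zero]
    refine ⟨StarAlgEquiv.ofAlgEquiv
      (AlgEquiv.ofLinearEquiv T.toLinearEquiv (by rw [hB 1]; exact hB _)
        (fun a b => by rw [hB (T.toLinearEquiv (a * b)), hB (T.toLinearEquiv a * _)]))
      (fun a => by rw [hB (star _)]; exact hB _), fun a => ?_⟩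
    rw [hB (_ - _), norm_zero]
    positivity
  obtain ⟨S, h3, h4, h5⟩ := near_star_iso hK hst hst1 T L δ hL1 hL hL' hδ0 (eps_bound hK hδ)
    (fun a b => by rw [← mul_assoc, hTT, hTT, hTT]; exact hT.2.2.2 a b)
    (fun a => by rw [hTT, hTT, hstar])
  refine ⟨StarAlgEquiv.ofAlgEquiv
    (AlgEquiv.ofLinearEquiv S.toLinearEquiv (map_one_of_mul S h3) h3) h4, fun a => ?_⟩
  change ‖S a - T₀ a‖ ≤ _
  rw [← hTT]
  exact ((S : A →L[ℂ] B) - (T : A →L[ℂ] B)).le_of_opNorm_le h5 a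

end

/-- all four stability properties, with absolute constants -/
theorem stability : ∃ ε C : ℝ, 0 < ε ∧ ∀ (H : Type u) [NormedAddCommGroup H]
    [InnerProductSpace ℂ H] [CompleteSpace H] (M : VonNeumannAlgebra H),
    VNStableAutomorphisms M ε C ∧ VNStableProducts M ε C ∧ VNStableIsomorphisms.{u, v} M ε C ∧
      VNStableStarIsomorphisms.{u, v} M ε C := by
  obtain ⟨K, hK, h⟩ := exists_const.{u}
  refine ⟨1 / (4608 * K ^ 2), 4632 * K ^ 2, by positivity, fun H _ _ _ M => ?_⟩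
  have := complete M
  exact ⟨stable_automorphisms hK (h H M).2, stable_products hK (h H M).1,
    stable_isomorphisms hK (h H M).1 (VN.kadison_ringrose M),
    stable_star_isomorphisms hK (h H M).1 (h H M).2⟩

end Vale.Agent.P082.H770
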