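import Vale.Agent.P082.H304.Stab

/-!
# Approximately associative multiplications near the multiplication of a Banach algebra
-/

namespace Vale.Agent.P082.H770

open Vale.Agent.P082.H304

section

variable {A : Type*} [NormedRing A] [NormedAlgebra ℂ A]

/-- the Newton step for an approximately associative product -/
theorem newton_step_approx {K : ℝ} (hK : 1 ≤ K) (hst : Stab A K) (m : A →L[ℂ] A →L[ℂ] A)
    (δ : ℝ) (hδ : 0 ≤ δ)
    (hm : ∀ a b c, ‖m (m a b) c - m a (m b c)‖ ≤ δ * (‖a‖ * ‖b‖ * ‖c‖))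
    (S R : A →L[ℂ] A) (hSR : ∀ x, S (R x) = x)
    (hRS : ∀ x, R (S x) = x) (hS : ‖S‖ ≤ 3 / 2) (hR : ‖R‖ ≤ 2) (e : ℝ) (he : 0 ≤ e)
    (hdef : ∀ a b, ‖S (m a b) - S a * S b‖ ≤ e * (‖a‖ * ‖b‖)) :
    ∃ S' : A →L[ℂ] A, ‖S' - S‖ ≤ 6 * K * e ∧
      ∀ a b, ‖S' (m a b) - S' a * S' b‖ ≤ (144 * K ^ 2 * e ^ 2 + 27 * K * δ) * (‖a‖ * ‖b‖) := by
  have hK0 : 0 ≤ K := by linarith
  -- the perturbed product is `x y + f x y`
  obtain ⟨f, hf⟩ : ∃ f : A →L[ℂ] A →L[ℂ] A, ∀ x y, f x y = S (m (R x) (R y)) - x * y :=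
    ⟨(ContinuousLinearMap.compL ℂ A A A S).comp (m.bilinearComp R R)
      - ContinuousLinearMap.mul ℂ A, fun x y => rfl⟩
  have hRx : ∀ x, ‖R x‖ ≤ 2 * ‖x‖ := fun x => R.le_of_opNorm_le hR x
  have hfb : ∀ x y, ‖f x y‖ ≤ 4 * e * (‖x‖ * ‖y‖) := by
    intro x y
    have h1 := hdef (R x) (R y)
    rw [hSR, hSR, ← hf] at h1
    have h2 := hRx x
    have h3 := hRx y
    calc ‖f x y‖ ≤ e * (‖R x‖ * ‖R y‖) := h1
      _ ≤ e * ((2 * ‖x‖) * (2 * ‖y‖)) := by gcongr
      _ = 4 * e * (‖x‖ * ‖y‖) := by ring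
  have hfn : ‖f‖ ≤ 4 * e := f.opNorm_le_bound₂ (by positivity) fun x y => by
    rw [mul_assoc]
    exact hfb x y
  -- associativity
  have hass : ∀ x y z, x * f y z - f (x * y) z + f x (y * z) - f x y * z
      = (f (f x y) z - f x (f y z))
        - S (m (m (R x) (R y)) (R z) - m (R x) (m (R y) (R z))) := by
    intro x y z
    have hmu : ∀ x y, S (m (R x) (R y)) = x * y + f x y := fun x y => by
      rw [hf]
      abel
    have hmr : ∀ x y, m (R x) (R y) = R (x * y + f x y) := fun x y => by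
      rw [← hmu, hRS]
    rw [map_sub, hmr x y, hmr y z, hmu, hmu, add_mul, mul_add, map_add, map_add,
      ContinuousLinearMap.add_apply, mul_assoc]
    abel
  have hassb : ∀ x y z, ‖S (m (m (R x) (R y)) (R z) - m (R x) (m (R y) (R z)))‖
      ≤ 12 * δ * (‖x‖ * ‖y‖ * ‖z‖) := by
    intro x y z
    have h1 : ‖S (m (m (R x) (R y)) (R z) - m (R x) (m (R y) (R z)))‖
        ≤ 3 / 2 * ‖m (m (R x) (R y)) (R z) - m (R x) (m (R y) (R z))‖ :=
      S.le_of_opNorm_le hS _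
    refine h1.trans ?_
    have h2 := hm (R x) (R y) (R z)
    have h3 : ‖R x‖ * ‖R y‖ * ‖R z‖ ≤ (2 * ‖x‖) * (2 * ‖y‖) * (2 * ‖z‖) := by
      gcongr <;> exact hRx _
    calc 3 / 2 * ‖m (m (R x) (R y)) (R z) - m (R x) (m (R y) (R z))‖
        ≤ 3 / 2 * (δ * ((2 * ‖x‖) * (2 * ‖y‖) * (2 * ‖z‖))) := by
          refine mul_le_mul_of_nonneg_left (h2.trans ?_) (by norm_num)
          exact mul_le_mul_of_nonneg_left h3 hδ
      _ = 12 * δ * (‖x‖ * ‖y‖ * ‖z‖) := by ring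
  obtain ⟨g, hg, hgf⟩ := hst f (32 * e ^ 2 + 12 * δ) (by positivity) (fun x y z => by
    rw [hass]
    have h1 : ‖f (f x y) z‖ ≤ 4 * e * ((4 * e * (‖x‖ * ‖y‖)) * ‖z‖) :=
      (hfb _ _).trans (by gcongr; exact hfb x y)
    have h2 : ‖f x (f y z)‖ ≤ 4 * e * (‖x‖ * (4 * e * (‖y‖ * ‖z‖))) :=
      (hfb _ _).trans (by gcongr; exact hfb y z)
    refine (norm_sub_le _ _).trans ((add_le_add ((norm_sub_le _ _).trans (add_le_add h1 h2))
      (hassb x y z)).trans (le_of_eq ?_))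
    ring)
  have hgn : ‖g‖ ≤ 4 * K * e := hg.trans (by nlinarith)
  have hgx : ∀ x, ‖g x‖ ≤ 4 * K * e * ‖x‖ := fun x => g.le_of_opNorm_le hgn x
  refine ⟨S + g.comp S, ?_, fun a b => ?_⟩
  · have h1 : S + g.comp S - S = g.comp S := by abel
    rw [h1]
    calc ‖g.comp S‖ ≤ ‖g‖ * ‖S‖ := g.opNorm_comp_le S
      _ ≤ (4 * K * e) * (3 / 2) := by gcongr
      _ = 6 * K * e := by ring
  · have hx : ∀ a, (S + g.comp S) a = S a + g (S a) := fun a => rfl
    set x := S a with hxa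
    set y := S b with hyb
    have h1 : S (m a b) = x * y + f x y := by
      rw [hf, hxa, hyb, hRS, hRS]
      abel
    have h2 : (S + g.comp S) (m a b) - (S + g.comp S) a * (S + g.comp S) b
        = (f x y - (x * g y - g (x * y) + g x * y)) + g (f x y) - g x * g y := by
      rw [hx, hx, hx, h1, map_add, ← hxa, ← hyb]
      noncomm_ring
    rw [h2]
    have h3 : ‖g (f x y)‖ ≤ 4 * K * e * (4 * e * (‖x‖ * ‖y‖)) :=
      (hgx _).trans (by gcongr; exact hfb x y)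
    have h4 : ‖g x * g y‖ ≤ (4 * K * e * ‖x‖) * (4 * K * e * ‖y‖) :=
      (norm_mul_le _ _).trans (by gcongr <;> exact hgx _)
    have h5 : ‖x‖ ≤ 3 / 2 * ‖a‖ := S.le_of_opNorm_le hS a
    have h6 : ‖y‖ ≤ 3 / 2 * ‖b‖ := S.le_of_opNorm_le hS b
    have h7 : ‖x‖ * ‖y‖ ≤ 9 / 4 * (‖a‖ * ‖b‖) := by
      calc ‖x‖ * ‖y‖ ≤ (3 / 2 * ‖a‖) * (3 / 2 * ‖b‖) := by gcongr
        _ = 9 / 4 * (‖a‖ * ‖b‖) := by ring
    have h8 : ‖(f x y - (x * g y - g (x * y) + g x * y)) + g (f x y) - g x * g y‖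
        ≤ K * (32 * e ^ 2 + 12 * δ) * (‖x‖ * ‖y‖) + 4 * K * e * (4 * e * (‖x‖ * ‖y‖))
          + (4 * K * e * ‖x‖) * (4 * K * e * ‖y‖) :=
      (norm_sub_le _ _).trans (add_le_add ((norm_add_le _ _).trans
        (add_le_add (hgf x y) h3)) h4)
    refine h8.trans ?_
    have h9 : K * (32 * e ^ 2 + 12 * δ) * (‖x‖ * ‖y‖) + 4 * K * e * (4 * e * (‖x‖ * ‖y‖))
          + (4 * K * e * ‖x‖) * (4 * K * e * ‖y‖)
        = ((48 * K + 16 * K ^ 2) * e ^ 2 + 12 * K * δ) * (‖x‖ * ‖y‖) := by ring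
    rw [h9]
    have h10 : 48 * K + 16 * K ^ 2 ≤ 64 * K ^ 2 := by nlinarith
    calc ((48 * K + 16 * K ^ 2) * e ^ 2 + 12 * K * δ) * (‖x‖ * ‖y‖)
        ≤ ((64 * K ^ 2) * e ^ 2 + 12 * K * δ) * (9 / 4 * (‖a‖ * ‖b‖)) := by gcongr
      _ = (144 * K ^ 2 * e ^ 2 + 27 * K * δ) * (‖a‖ * ‖b‖) := by ring

/-- inverse of an operator near the identity -/
lemma exists_inverse [CompleteSpace A] (S : A →L[ℂ] A)
    (hS : ‖S - ContinuousLinearMap.id ℂ A‖ ≤ 1 / 2) :
    ‖S‖ ≤ 3 / 2 ∧ ∃ R : A →L[ℂ] A, (∀ x, S (R x) = x) ∧ (∀ x, R (S x) = x) ∧ ‖R‖ ≤ 2 := by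
  obtain ⟨T, hT⟩ := exists_equiv S hS
  have hS' : ‖S‖ ≤ 3 / 2 := by
    have h1 : S = (S - ContinuousLinearMap.id ℂ A) + ContinuousLinearMap.id ℂ A := by abel
    rw [h1]
    refine (norm_add_le _ _).trans ((add_le_add hS ContinuousLinearMap.norm_id_le).trans ?_)
    norm_num
  have hSR : ∀ x, S ((T.symm : A →L[ℂ] A) x) = x := fun x => by
    rw [← hT]
    exact T.apply_symm_apply x
  have hRS : ∀ x, (T.symm : A →L[ℂ] A) (S x) = x := fun x => by
    rw [← hT]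
    exact T.symm_apply_apply x
  refine ⟨hS', (T.symm : A →L[ℂ] A), hSR, hRS, ?_⟩
  refine ContinuousLinearMap.opNorm_le_bound _ (by norm_num) fun x => ?_
  set y := (T.symm : A →L[ℂ] A) x with hy
  have h1 : ‖(S - ContinuousLinearMap.id ℂ A) y‖ ≤ 1 / 2 * ‖y‖ :=
    (S - ContinuousLinearMap.id ℂ A).le_of_opNorm_le hS y
  have h2 : y = x - (S - ContinuousLinearMap.id ℂ A) y := by
    have h3 : S y = x := hSR x
    change y = x - (S y - y)
    rw [h3]
    abel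
  have h4 : ‖y‖ ≤ ‖x‖ + ‖(S - ContinuousLinearMap.id ℂ A) y‖ := by
    conv_lhs => rw [h2]
    exact norm_sub_le _ _
  linarith

/-- **Approximately associative products near the product** are near isomorphic ones. -/
theorem near_assoc [CompleteSpace A] {K : ℝ} (hK : 1 ≤ K) (hst : Stab A K)
    (m : A →L[ℂ] A →L[ℂ] A) (η δ : ℝ) (hη0 : 0 ≤ η) (hδ0 : 0 ≤ δ)
    (hη : 576 * K ^ 2 * η ≤ 1) (hdef : ∀ a b, ‖m a b - a * b‖ ≤ η * (‖a‖ * ‖b‖))
    (hm : ∀ a b c, ‖m (m a b) c - m a (m b c)‖ ≤ δ * (‖a‖ * ‖b‖ * ‖c‖)) :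
    ∃ T : A ≃L[ℂ] A, ‖(T : A →L[ℂ] A) - ContinuousLinearMap.id ℂ A‖ ≤ 12 * K * η ∧
      ∀ a b, ‖T (m a b) - T a * T b‖ ≤ 108 * K * δ * (‖a‖ * ‖b‖) := by
  have hK0 : 0 ≤ K := by linarith
  rcases hδ0.eq_or_lt with hδ | hδ
  · -- associative products
    subst hδ
    obtain ⟨T, hT1, hT2⟩ := rigid hK hst m (fun a b c => by
      have h1 := hm a b c
      rw [zero_mul] at h1
      exact sub_eq_zero.1 (norm_le_zero_iff.1 h1)) η hη0 (by nlinarith [mul_nonneg (sq_nonneg K) hη0])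
      hdef
    refine ⟨T, hT2, fun a b => ?_⟩
    rw [hT1, sub_self, norm_zero]
    positivity
  · have hKη : 12 * K * η ≤ 1 / 2 := by
      have h1 : K * η ≤ K ^ 2 * η := by nlinarith [mul_nonneg hK0 hη0]
      nlinarith
    let P : ℕ → (A →L[ℂ] A) → Prop := fun n S =>
      ‖S - ContinuousLinearMap.id ℂ A‖ ≤ 12 * K * η * (1 - 1 / 2 ^ n) ∧
        ∀ a b, ‖S (m a b) - S a * S b‖ ≤ η / 2 ^ n * (‖a‖ * ‖b‖)
    have hP0 : P 0 (ContinuousLinearMap.id ℂ A) := by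
      refine ⟨by simp, fun a b => ?_⟩
      rw [pow_zero, div_one]
      exact hdef a b
    have hhalf : ∀ n S, P n S → ‖S - ContinuousLinearMap.id ℂ A‖ ≤ 1 / 2 := by
      intro n S hS
      refine hS.1.trans (le_trans ?_ hKη)
      refine mul_le_of_le_one_right (by positivity) ?_
      have : 0 ≤ 1 / (2 : ℝ) ^ n := by positivity
      linarith
    have hstep : ∀ n S, P n S → 108 * K * δ < η / 2 ^ n → ∃ S', P (n + 1) S' := by
      intro n S hS hbig
      have hp : (0 : ℝ) < 2 ^ n := by positivity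
      have hp1 : (1 : ℝ) ≤ 2 ^ n := one_le_pow₀ (by norm_num)
      obtain ⟨hS1, R, hSR, hRS, hR⟩ := exists_inverse S (hhalf n S hS)
      obtain ⟨S', h2, h3⟩ := newton_step_approx hK hst m δ hδ.le hm S R hSR hRS hS1 hR
        (η / 2 ^ n) (by positivity) hS.2
      refine ⟨S', ?_, fun a b => (h3 a b).trans ?_⟩
      · have h4 : S' - ContinuousLinearMap.id ℂ A
            = (S' - S) + (S - ContinuousLinearMap.id ℂ A) := by abel
        rw [h4]
        refine (norm_add_le _ _).trans ((add_le_add h2 hS.1).trans (le_of_eq ?_))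
        rw [pow_succ]
        field_simp
        ring
      · refine mul_le_mul_of_nonneg_right ?_ (by positivity)
        set e := η / 2 ^ n with he
        have he0 : 0 ≤ e := by positivity
        have he1 : e ≤ η := div_le_self hη0 hp1
        have h5 : η / 2 ^ (n + 1) = e / 2 := by
          rw [he, pow_succ]
          field_simp
        rw [h5]
        have h6 : 144 * K ^ 2 * e ^ 2 ≤ e / 4 := by
          have h7 : 144 * K ^ 2 * e ≤ 1 / 4 := by nlinarith [mul_le_mul_of_nonneg_left he1 (sq_nonneg K)]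
          nlinarith
        linarith
    -- the first index at which the defect is comparable with `δ`
    have hex : ∃ n : ℕ, η / 2 ^ n ≤ 108 * K * δ := by
      have hpos : 0 < 108 * K * δ := by positivity
      have h1 : Filter.Tendsto (fun n : ℕ => η * (1 / 2 : ℝ) ^ n) Filter.atTop (nhds 0) := by
        have h4 := (tendsto_pow_atTop_nhds_zero_of_lt_one (by norm_num : (0 : ℝ) ≤ 1 / 2)
          (by norm_num)).const_mul η
        rwa [mul_zero] at h4
      obtain ⟨n, hn⟩ := (h1.eventually (gt_mem_nhds hpos)).exists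
      refine ⟨n, ?_⟩
      rw [one_div, inv_pow, ← div_eq_mul_inv] at hn
      exact hn.le
    classical
    have hmin : ∀ k < Nat.find hex, 108 * K * δ < η / 2 ^ k := fun k hk =>
      not_le.1 (Nat.find_min hex hk)
    have hall : ∀ n ≤ Nat.find hex, ∃ S, P n S := by
      intro n
      induction n with
      | zero => exact fun _ => ⟨_, hP0⟩
      | succ n ih =>
        intro hn
        obtain ⟨S, hS⟩ := ih (by omega)
        exact hstep n S hS (hmin n (by omega))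
    obtain ⟨S, hS⟩ := hall _ le_rfl
    obtain ⟨T, hT⟩ := exists_equiv S (hhalf _ S hS)
    refine ⟨T, ?_, fun a b => ?_⟩
    · have h1 : (T : A →L[ℂ] A) = S := by
        ext x
        exact hT x
      rw [h1]
      refine hS.1.trans (mul_le_of_le_one_right (by positivity) ?_)
      have : 0 ≤ 1 / (2 : ℝ) ^ (Nat.find hex) := by positivity
      linarith
    · rw [hT, hT, hT]
      refine (hS.2 a b).trans (mul_le_mul_of_nonneg_right (Nat.find_spec hex) (by positivity))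

end

end Vale.Agent.P082.H770
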