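import Mathlib.Analysis.CStarAlgebra.ContinuousFunctionalCalculus.Isometric
import Mathlib.Analysis.CStarAlgebra.ContinuousFunctionalCalculus.Instances
import Mathlib.Analysis.CStarAlgebra.ContinuousFunctionalCalculus.Basic
import Mathlib.Analysis.CStarAlgebra.Basic

/-!
# Inverse square roots near `1` in a C*-algebra
-/

namespace Vale.Agent.P082.H770

section

variable {A : Type*} [NormedRing A] [StarRing A] [CStarRing A] [NormedAlgebra ℂ A]
  [StarModule ℂ A] [CompleteSpace A]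

lemma abs_inv_sqrt_sub_one_le {x : ℝ} (hx : 1 / 2 ≤ x) :
    |(Real.sqrt x)⁻¹ - 1| ≤ |x - 1| := by
  set t := Real.sqrt x with ht
  have ht0 : 7 / 10 ≤ t := Real.le_sqrt_of_sq_le (by linarith)
  have htx : t * t = x := Real.mul_self_sqrt (by linarith)
  have htpos : 0 < t := by linarith
  have h1 : t⁻¹ - 1 = (1 - t) * t⁻¹ := by
    rw [sub_mul, one_mul, mul_inv_cancel₀ htpos.ne']
  have h2 : x - 1 = (t - 1) * (t + 1) := by rw [← htx]; ring
  rw [h1, h2, abs_mul, abs_mul, abs_sub_comm 1 t]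
  refine mul_le_mul_of_nonneg_left ?_ (abs_nonneg _)
  rw [abs_of_pos (inv_pos.2 htpos), abs_of_pos (by linarith : 0 < t + 1)]
  rw [inv_le_iff_one_le_mul₀ htpos]
  nlinarith

/-- inverse square roots of selfadjoint elements near `1` -/
theorem exists_invsqrt (h : A) (hh : IsSelfAdjoint h) (hn : ‖h - 1‖ ≤ 1 / 2) :
    ∃ k : A, IsSelfAdjoint k ∧ k * h = h * k ∧ k * k * h = 1 ∧ ‖k - 1‖ ≤ ‖h - 1‖ := by
  rcases subsingleton_or_nontrivial A with hs | hs
  · exact ⟨1, Subsingleton.elim _ _, Subsingleton.elim _ _, Subsingleton.elim _ _, by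
      rw [Subsingleton.elim (1 - 1 : A) (h - 1)]⟩
  let _ : CStarAlgebra A := {}
  have hspec : ∀ x ∈ spectrum ℝ h, |x - 1| ≤ ‖h - 1‖ := by
    intro x hx
    have h1 : x - 1 ∈ spectrum ℝ (h - 1) := by
      have h2 := spectrum.sub_singleton_eq h (1 : ℝ)
      rw [map_one] at h2
      rw [← h2]
      exact Set.sub_mem_sub hx rfl
    have h2 := spectrum.norm_le_norm_of_mem h1
    rwa [Real.norm_eq_abs] at h2
  have hlow : ∀ x ∈ spectrum ℝ h, 1 / 2 ≤ x := by
    intro x hx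
    have h1 := (abs_le.1 ((hspec x hx).trans hn)).1
    linarith
  have hcont : ContinuousOn (fun x : ℝ => (Real.sqrt x)⁻¹) (spectrum ℝ h) := by
    refine ContinuousOn.inv₀ Real.continuous_sqrt.continuousOn fun x hx => ?_
    have h1 := hlow x hx
    exact (Real.sqrt_pos.2 (by linarith)).ne'
  refine ⟨cfc (fun x : ℝ => (Real.sqrt x)⁻¹) h, cfc_predicate _ _, ?_, ?_, ?_⟩
  · have h1 : cfc (fun x : ℝ => x) h = h := cfc_id' ℝ h
    calc cfc (fun x : ℝ => (Real.sqrt x)⁻¹) h * h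
        = cfc (fun x : ℝ => (Real.sqrt x)⁻¹) h * cfc (fun x : ℝ => x) h := by rw [h1]
      _ = cfc (fun x : ℝ => (Real.sqrt x)⁻¹ * x) h := (cfc_mul _ _ h hcont).symm
      _ = cfc (fun x : ℝ => x * (Real.sqrt x)⁻¹) h := by simp only [mul_comm]
      _ = cfc (fun x : ℝ => x) h * cfc (fun x : ℝ => (Real.sqrt x)⁻¹) h :=
          cfc_mul _ _ h (by fun_prop) hcont
      _ = h * cfc (fun x : ℝ => (Real.sqrt x)⁻¹) h := by rw [h1]
  · have h1 : cfc (fun x : ℝ => x) h = h := cfc_id' ℝ h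
    calc cfc (fun x : ℝ => (Real.sqrt x)⁻¹) h * cfc (fun x : ℝ => (Real.sqrt x)⁻¹) h * h
        = cfc (fun x : ℝ => (Real.sqrt x)⁻¹ * (Real.sqrt x)⁻¹) h
            * cfc (fun x : ℝ => x) h := by rw [cfc_mul _ _ h hcont hcont, h1]
      _ = cfc (fun x : ℝ => (Real.sqrt x)⁻¹ * (Real.sqrt x)⁻¹ * x) h :=
          (cfc_mul _ _ h (hcont.mul hcont) (by fun_prop)).symm
      _ = cfc (fun _ : ℝ => (1 : ℝ)) h := by
          refine cfc_congr fun x hx => ?_
          have h2 := hlow x hx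
          have h3 : 0 < Real.sqrt x := Real.sqrt_pos.2 (by linarith)
          have h4 : Real.sqrt x * Real.sqrt x = x := Real.mul_self_sqrt (by linarith)
          change (Real.sqrt x)⁻¹ * (Real.sqrt x)⁻¹ * x = 1
          nth_rewrite 3 [← h4]
          field_simp
      _ = 1 := cfc_const_one ℝ h
  · have h1 : cfc (fun x : ℝ => (Real.sqrt x)⁻¹) h - 1
        = cfc (fun x : ℝ => (Real.sqrt x)⁻¹ - 1) h := by
      rw [cfc_sub _ _ h hcont (by fun_prop), cfc_const_one ℝ h]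
    rw [h1]
    refine norm_cfc_le (norm_nonneg _) fun x hx => ?_
    rw [Real.norm_eq_abs]
    exact (abs_inv_sqrt_sub_one_le (hlow x hx)).trans (hspec x hx)

end

end Vale.Agent.P082.H770
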