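import Vale.Agent.P082.H770.Inner
import Vale.Agent.P082.H770.Iso
import Vale.Agent.P082.H770.Root

/-!
# The involutive versions: unitaries and *-isomorphisms
-/

namespace Vale.Agent.P082.H770

open Vale.Agent.P082.H304

section

variable {A : Type*} [NormedRing A] [StarRing A] [CStarRing A] [NormedAlgebra ℂ A]
  [StarModule ℂ A] [CompleteSpace A]

/-- commutators with `k` are controlled by commutators with `k²` -/
lemma comm_le (k : A) [NormOneClass A] (hk : ‖k - 1‖ ≤ 1 / 2) (a : A) :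
    ‖a * k - k * a‖ ≤ ‖a * (k * k) - k * k * a‖ := by
  set q := a * k - k * a with hq
  have h1 : a * (k * k) - k * k * a = q + q + (q * (k - 1) + (k - 1) * q) := by
    rw [hq]
    noncomm_ring
  have h2 : q + q = (a * (k * k) - k * k * a) - (q * (k - 1) + (k - 1) * q) := by
    rw [h1]
    abel
  have h3 : ‖q + q‖ = 2 * ‖q‖ := by
    rw [← two_smul ℂ q, norm_smul]
    norm_num
  have h4 : ‖q * (k - 1) + (k - 1) * q‖ ≤ ‖q‖ := by
    refine (norm_add_le _ _).trans ?_
    have h5 : ‖q * (k - 1)‖ ≤ ‖q‖ * (1 / 2) := (norm_mul_le _ _).trans (by gcongr)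
    have h6 : ‖(k - 1) * q‖ ≤ (1 / 2) * ‖q‖ := (norm_mul_le _ _).trans (by gcongr)
    linarith
  have h7 : 2 * ‖q‖ ≤ ‖a * (k * k) - k * k * a‖ + ‖q‖ := by
    rw [← h3]
    conv_lhs => rw [h2]
    exact (norm_sub_le _ _).trans (by linarith)
  linarith

/-- **Approximately multiplicative *-preserving maps near the identity** are near inner
*-automorphisms. -/
theorem near_unitary [NormOneClass A] {K : ℝ} (hK : 1 ≤ K) (hst : Stab1 A K)
    (T : A →L[ℂ] A) (η δ : ℝ) (hη0 : 0 ≤ η) (hδ0 : 0 ≤ δ) (hη : 48 * K * η ≤ 1)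
    (hdef : ∀ a, ‖T a - a‖ ≤ η * ‖a‖)
    (hT : ∀ a b, ‖T (a * b) - T a * T b‖ ≤ δ * (‖a‖ * ‖b‖))
    (hstar : ∀ a, T (star a) = star (T a)) :
    ∃ u : unitary A, ‖(u : A) - 1‖ ≤ 30 * K * η ∧
      ∀ a, ‖T a - u * a * star (u : A)‖ ≤ 1404 * K * δ * ‖a‖ := by
  have hK0 : 0 ≤ K := by linarith
  obtain ⟨s, hs1, hs2⟩ := near_inner hK hst T η δ hη0 hδ0 hη hdef hT
  set σ := 6 * K * η with hσ
  set D := 36 * K * δ with hD
  have hσ0 : 0 ≤ σ := by positivity
  have hD0 : 0 ≤ D := by positivity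
  have hσ1 : σ ≤ 1 / 8 := by rw [hσ]; linarith
  obtain ⟨hsn, -⟩ := exists_unit (s : A) (hs1.trans (by linarith))
  have hstn : ‖star (s : A)‖ ≤ 3 / 2 := by rw [norm_star]; exact hsn
  have hst1 : ‖star (s : A) - 1‖ ≤ σ := by
    rw [← star_one A, ← star_sub, norm_star]
    exact hs1
  -- intertwining relations
  have hI1 : ∀ a, ‖T a * s - s * a‖ ≤ 3 / 2 * D * ‖a‖ := fun a => by
    have h1 : T a * s - s * a = (T a - s * a * ((s⁻¹ : Aˣ) : A)) * s := by
      rw [sub_mul, Units.inv_mul_cancel_right]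
    rw [h1]
    calc ‖(T a - s * a * ((s⁻¹ : Aˣ) : A)) * s‖
        ≤ ‖T a - s * a * ((s⁻¹ : Aˣ) : A)‖ * ‖(s : A)‖ := norm_mul_le _ _
      _ ≤ (D * ‖a‖) * (3 / 2) := by
          gcongr
          exact hs2 a
      _ = 3 / 2 * D * ‖a‖ := by ring
  have hI2 : ∀ a, ‖star (s : A) * T a - a * star (s : A)‖ ≤ 3 / 2 * D * ‖a‖ := fun a => by
    have h1 := hI1 (star a)
    rw [hstar, norm_star] at h1
    have h2 : star (s : A) * T a - a * star (s : A) = star (star (T a) * s - s * star a) := by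
      rw [star_sub, star_mul, star_mul, star_star, star_star]
    rw [h2, norm_star]
    exact h1
  set h : A := star (s : A) * s with hh
  have hcomm : ∀ a, ‖h * a - a * h‖ ≤ 9 / 2 * D * ‖a‖ := fun a => by
    have h1 : h * a - a * h = star (s : A) * (s * a - T a * s)
        + (star (s : A) * T a - a * star (s : A)) * s := by
      rw [hh]
      noncomm_ring
    rw [h1]
    have h2 : ‖star (s : A) * (s * a - T a * s)‖ ≤ 3 / 2 * (3 / 2 * D * ‖a‖) := by
      refine (norm_mul_le _ _).trans ?_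
      gcongr
      rw [norm_sub_rev]
      exact hI1 a
    have h3 : ‖(star (s : A) * T a - a * star (s : A)) * s‖ ≤ (3 / 2 * D * ‖a‖) * (3 / 2) := by
      refine (norm_mul_le _ _).trans ?_
      gcongr
      exact hI2 a
    refine (norm_add_le _ _).trans ((add_le_add h2 h3).trans (le_of_eq ?_))
    ring
  have hsa : IsSelfAdjoint h := IsSelfAdjoint.star_mul_self _
  have hh1 : ‖h - 1‖ ≤ 5 / 2 * σ := by
    have h1 : h - 1 = (star (s : A) - 1) * s + (s - 1) := by
      rw [hh]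
      noncomm_ring
    rw [h1]
    refine (norm_add_le _ _).trans ?_
    have h2 : ‖(star (s : A) - 1) * (s : A)‖ ≤ σ * (3 / 2) :=
      (norm_mul_le _ _).trans (by gcongr)
    linarith
  obtain ⟨k, hk1, hk2, hk3, hk4⟩ := exists_invsqrt h hsa (hh1.trans (by linarith))
  have hk5 : ‖k - 1‖ ≤ 5 / 2 * σ := hk4.trans hh1
  have hk6 : ‖k - 1‖ ≤ 1 / 2 := hk5.trans (by linarith)
  obtain ⟨hkn, ku, hku, -⟩ := exists_unit k hk6
  have hk7 : h * (k * k) = 1 := by
    rw [← mul_assoc, ← hk2, mul_assoc, ← hk2, ← mul_assoc, hk3]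
  have hkc : ∀ a, ‖a * k - k * a‖ ≤ 23 * D * ‖a‖ := fun a => by
    refine (comm_le k hk6 a).trans ?_
    have h1 : a * (k * k) - k * k * a = k * k * (h * a - a * h) * (k * k) := by
      have h2 : k * k * (h * a - a * h) * (k * k)
          = (k * k * h) * a * (k * k) - k * k * a * (h * (k * k)) := by noncomm_ring
      rw [h2, hk3, hk7, one_mul, mul_one]
    rw [h1]
    have h2 : ‖k * k‖ ≤ 3 / 2 * (3 / 2) := (norm_mul_le _ _).trans (by gcongr)
    calc ‖k * k * (h * a - a * h) * (k * k)‖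
        ≤ ‖k * k‖ * ‖h * a - a * h‖ * ‖k * k‖ :=
          (norm_mul_le _ _).trans (by gcongr; exact norm_mul_le _ _)
      _ ≤ (3 / 2 * (3 / 2)) * (9 / 2 * D * ‖a‖) * (3 / 2 * (3 / 2)) := by
          gcongr
          exact hcomm a
      _ ≤ 23 * D * ‖a‖ := by
          have h3 : 0 ≤ D * ‖a‖ := by positivity
          nlinarith
  -- the unitary
  have hu1 : star ((s : A) * k) * ((s : A) * k) = 1 := by
    rw [star_mul, hk1.star_eq, mul_assoc, ← mul_assoc (star (s : A)), ← hh, ← mul_assoc, hk2,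
      mul_assoc, hk7]
  have hu2 : ((s : A) * k) * star ((s : A) * k) = 1 := by
    have h1 : ((s * ku : Aˣ) : A) = (s : A) * k := by rw [Units.val_mul, hku]
    have h2 : star ((s : A) * k) = (((s * ku)⁻¹ : Aˣ) : A) := by
      refine Units.eq_inv_of_mul_eq_one_right ?_
      rw [h1]
      exact hu1
    rw [h2, ← h1, Units.mul_inv]
  refine ⟨⟨(s : A) * k, Unitary.mem_iff.2 ⟨hu1, hu2⟩⟩, ?_, fun a => ?_⟩
  · change ‖(s : A) * k - 1‖ ≤ _
    have h1 : (s : A) * k - 1 = s * (k - 1) + (s - 1) := by noncomm_ring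
    rw [h1]
    refine (norm_add_le _ _).trans ?_
    have h2 : ‖(s : A) * (k - 1)‖ ≤ 3 / 2 * (5 / 2 * σ) := (norm_mul_le _ _).trans (by gcongr)
    calc ‖(s : A) * (k - 1)‖ + ‖(s : A) - 1‖ ≤ 3 / 2 * (5 / 2 * σ) + σ := add_le_add h2 hs1
      _ ≤ 5 * σ := by linarith
      _ = 30 * K * η := by rw [hσ]; ring
  · change ‖T a - (s : A) * k * a * star ((s : A) * k)‖ ≤ _
    set u := (s : A) * k with hu
    have h1 : T a - u * a * star u = (T a * u - u * a) * star u := by
      rw [sub_mul, mul_assoc (T a), hu2, mul_one]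
    have h2 : T a * u - u * a = (T a * s - s * a) * k + s * (a * k - k * a) := by
      rw [hu]
      noncomm_ring
    have h3 : ‖T a * u - u * a‖ ≤ 39 * D * ‖a‖ := by
      rw [h2]
      have h4 : ‖(T a * s - s * a) * k‖ ≤ (3 / 2 * D * ‖a‖) * (3 / 2) := by
        refine (norm_mul_le _ _).trans ?_
        gcongr
        exact hI1 a
      have h5 : ‖(s : A) * (a * k - k * a)‖ ≤ 3 / 2 * (23 * D * ‖a‖) := by
        refine (norm_mul_le _ _).trans ?_
        gcongr
        exact hkc a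
      have h6 : 0 ≤ D * ‖a‖ := by positivity
      refine (norm_add_le _ _).trans ((add_le_add h4 h5).trans ?_)
      nlinarith
    have h4 : ‖star u‖ ≤ 1 := by
      rw [norm_star]
      have h5 : ‖u‖ * ‖u‖ = 1 := by
        rw [← CStarRing.norm_star_mul_self, hu1, norm_one]
      nlinarith [norm_nonneg u]
    rw [h1]
    calc ‖(T a * u - u * a) * star u‖ ≤ ‖T a * u - u * a‖ * ‖star u‖ := norm_mul_le _ _
      _ ≤ (39 * D * ‖a‖) * 1 := by gcongr
      _ = 1404 * K * δ * ‖a‖ := by rw [hD]; ring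

end

end Vale.Agent.P082.H770
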